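import Vale.Agent.N043.ZMain
import Vale.Agent.P043.T2.Final
import Vale.Agent.P043.H703.Main

/-!
# Aperiodic tiles that are finite unions of boxes, in every dimension `d ≥ 2`
-/

namespace Vale.Agent.N043

open MeasureTheory Set Vale.Agent.P043.T2

/-- `S` is, up to a null set, a finite union of closed boxes. -/
def FB {α : Type*} [Preorder α] [MeasureSpace α] (S : Set α) : Prop :=
  ∃ T : Finset (α × α), S =ᵐ[volume] ⋃ p ∈ T, Icc p.1 p.2

theorem FB.biUnion {α ι : Type*} [Preorder α] [MeasureSpace α] {s : Set ι} (hs : s.Finite)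
    {S : ι → Set α} (h : ∀ i ∈ s, FB (S i)) : FB (⋃ i ∈ s, S i) := by
  classical
  choose! T hT using h
  refine ⟨hs.toFinset.biUnion T, ?_⟩
  filter_upwards [(ae_ball_iff hs.countable).2 hT] with x hx
  refine propext ⟨fun h => ?_, fun h => ?_⟩
  · obtain ⟨i, hi, hxi⟩ := mem_iUnion₂.1 h
    obtain ⟨p, hp, hxp⟩ := mem_iUnion₂.1 ((hx i hi).mp hxi)
    exact mem_iUnion₂.2 ⟨p, Finset.mem_biUnion.2 ⟨i, hs.mem_toFinset.2 hi, hp⟩, hxp⟩
  · obtain ⟨p, hp, hxp⟩ := mem_iUnion₂.1 h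
    obtain ⟨i, hi, hp⟩ := Finset.mem_biUnion.1 hp
    have hi' := hs.mem_toFinset.1 hi
    exact mem_iUnion₂.2 ⟨i, hi', (hx i hi').mpr (mem_iUnion₂.2 ⟨p, hp, hxp⟩)⟩

theorem FB.iUnion {α ι : Type*} [Preorder α] [MeasureSpace α] [Finite ι]
    {S : ι → Set α} (h : ∀ i, FB (S i)) : FB (⋃ i, S i) := by
  rw [← biUnion_univ]
  exact FB.biUnion finite_univ fun i _ => h i

theorem FB.union {α : Type*} [Preorder α] [MeasureSpace α] {S S' : Set α} (h : FB S)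
    (h' : FB S') : FB (S ∪ S') := by
  rw [union_eq_iUnion]
  exact FB.iUnion fun b => by cases b <;> assumption

theorem fb_of_ordConnected {S : Set ℝ} (hS : S.OrdConnected) {a b : ℝ} (hb : S ⊆ Icc a b) :
    FB S := by
  rcases S.eq_empty_or_nonempty with rfl | hne
  · exact ⟨∅, by simp⟩
  have h1 : BddBelow S := bddBelow_Icc.mono hb
  have h2 : BddAbove S := bddAbove_Icc.mono hb
  refine ⟨{(sInf S, sSup S)}, ?_⟩
  simp only [Finset.mem_singleton, iUnion_iUnion_eq_left]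
  refine (subset_Icc_csInf_csSup h1 h2).eventuallyLE.antisymm ?_
  exact Ioo_ae_eq_Icc.symm.le.trans
    (IsConnected.Ioo_csInf_csSup_subset ⟨hne, hS.isPreconnected⟩ h1 h2).eventuallyLE

theorem fb_of_local {S : Set ℝ} (u c₁ c₂ c₃ : ℝ) (hS : ∀ x ∈ S, 0 ≤ x - u ∧ x - u < 1)
    (h : ∀ x ∈ S, ∀ y, ⌊44100 * (y - u)⌋ = ⌊44100 * (x - u)⌋ →
      (fy (y - u) < c₁ ↔ fy (x - u) < c₁) → (fy (y - u) < c₂ ↔ fy (x - u) < c₂) →
      (fy (y - u) < c₃ ↔ fy (x - u) < c₃) → y ∈ S) : FB S := by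
  set key : ℝ → ℤ × Prop × Prop × Prop :=
    fun x => (⌊44100 * (x - u)⌋, fy (x - u) < c₁, fy (x - u) < c₂, fy (x - u) < c₃) with hkey
  have hfin : (key '' S).Finite := by
    refine ((finite_Ico (0 : ℤ) 44100).prod finite_univ).subset ?_
    rintro _ ⟨x, hx, rfl⟩
    obtain ⟨h0, h1⟩ := hS x hx
    refine ⟨⟨Int.floor_nonneg.2 (by linarith), Int.floor_lt.2 ?_⟩, mem_univ _⟩
    push_cast
    linarith
  have e : S = ⋃ k ∈ key '' S, S ∩ key ⁻¹' {k} := by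
    ext x
    simp only [mem_iUnion₂]
    exact ⟨fun hx => ⟨key x, ⟨x, hx, rfl⟩, hx, rfl⟩, fun ⟨_, _, hx, _⟩ => hx⟩
  rw [e]
  refine FB.biUnion hfin fun k _ => fb_of_ordConnected (a := u) (b := u + 1) ⟨?_⟩ ?_
  · rintro x ⟨hx, hxk⟩ y ⟨-, hyk⟩ z ⟨hxz, hzy⟩
    have hxy : key x = key y := (mem_singleton_iff.1 hxk).trans (mem_singleton_iff.1 hyk).symm
    simp only [hkey, Prod.mk.injEq, eq_iff_iff] at hxy
    obtain ⟨f0, f1, f2, f3⟩ := hxy
    have g0 : ⌊44100 * (z - u)⌋ = ⌊44100 * (x - u)⌋ :=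
      le_antisymm (f0 ▸ Int.floor_mono (by linarith)) (Int.floor_mono (by linarith))
    have l1 : fy (x - u) ≤ fy (z - u) := by unfold fy; rw [g0]; linarith
    have l2 : fy (z - u) ≤ fy (y - u) := by unfold fy; rw [g0, f0]; linarith
    have g : ∀ c, (fy (x - u) < c ↔ fy (y - u) < c) → (fy (z - u) < c ↔ fy (x - u) < c) :=
      fun c hc => ⟨fun h1 => l1.trans_lt h1, fun h1 => l2.trans_lt (hc.1 h1)⟩
    refine ⟨h x hx z g0 (g _ f1) (g _ f2) (g _ f3), ?_⟩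
    rw [mem_preimage, mem_singleton_iff, ← mem_singleton_iff.1 hxk]
    simp only [hkey, g0, g _ f1, g _ f2, g _ f3]
  · rintro x ⟨hx, -⟩
    obtain ⟨h0, h1⟩ := hS x hx
    exact ⟨by linarith, by linarith⟩

theorem Eb_local {τ : Bool} {t c c' : ℝ} {i : Ix} {x y : ℝ} (hx : x ∈ Eb τ t c c' i)
    (h0 : ⌊44100 * y⌋ = ⌊44100 * x⌋) (h1 : fy y < c' ↔ fy x < c')
    (h2 : fy y < c + (row τ i : ℝ) * t ↔ fy x < c + (row τ i : ℝ) * t) : y ∈ Eb τ t c c' i := by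
  obtain ⟨a0, a1, a2⟩ := hx
  have b0 : 0 ≤ ⌊44100 * y⌋ := h0 ▸ Int.floor_nonneg.2 (by linarith)
  have b1 : ⌊44100 * y⌋ < 44100 := h0 ▸ Int.floor_lt.2 (by push_cast; linarith)
  have c0 := Int.floor_nonneg.1 b0
  have c1 := Int.floor_lt.1 b1
  push_cast at c1
  refine ⟨by linarith, by linarith, ?_⟩
  simp only [h0, h1, h2]
  exact a2

theorem fb_Eb (τ : Bool) (t c c' : ℝ) (i : Ix) : FB (Eb τ t c c' i) :=
  fb_of_local 0 c' (c + (row τ i : ℝ) * t) 0 (fun x hx => by simpa using ⟨hx.1, hx.2.1⟩)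
    fun x hx y h0 h1 h2 _ => by
      simp only [sub_zero] at h0 h1 h2
      exact Eb_local hx h0 h1 h2

theorem fb_E (t : ℝ) (k : Fin 5) (i : Ix) : FB (E t k i) := by
  unfold E
  split_ifs with h0 h1 h2 h3 h4
  any_goals exact fb_Eb _ _ _ _ _
  subst h4
  refine FB.union ?_ ?_
  · refine fb_of_local 0 0 (al + (row true (0, 0, 0, 0) : ℝ) * t) (al / 2)
      (fun x hx => by simpa using ⟨hx.1.1, hx.1.2.1⟩) fun x hx y h0 h1 h2 h3 => ?_
    simp only [sub_zero] at h0 h1 h2 h3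
    exact ⟨Eb_local hx.1 h0 h1 h2, fun hy => hx.2 ⟨hx.1, h3.1 hy.2⟩⟩
  · exact fb_of_local 1 0 (al + (row true (0, 0, 0, 0) : ℝ) * t) (al / 2)
      (fun x hx => ⟨hx.1.1, hx.1.2.1⟩) fun x hx y h0 h1 h2 h3 =>
        ⟨Eb_local hx.1 h0 h1 h2, h3.2 hx.2⟩

theorem FB.strip {S : Set ℝ} (h : FB S) (c e : ℝ) :
    FB {x : Fin 2 → ℝ | x 0 ∈ S ∧ x 1 ∈ Ico c e} := by
  classical
  obtain ⟨T, hT⟩ := h
  refine ⟨T.image fun p => (![p.1, c], ![p.2, e]), ?_⟩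
  have h1 := eX_mp.quasiMeasurePreserving.preimage_ae_eq
    (Measure.set_prod_ae_eq hT (Ico_ae_eq_Icc (μ := volume) (a := c) (b := e)))
  refine h1.trans (Filter.EventuallyEq.of_eq (Set.ext fun x => ?_))
  simp only [mem_preimage, eX_apply, mem_prod, mem_iUnion₂, Finset.mem_image, exists_prop]
  constructor
  · rintro ⟨⟨p, hp, h0⟩, h1⟩
    refine ⟨_, ⟨p, hp, rfl⟩, fun i => ?_, fun i => ?_⟩ <;> fin_cases i
    exacts [h0.1, h1.1, h0.2, h1.2]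
  · rintro ⟨_, ⟨p, hp, rfl⟩, h0, h1⟩
    exact ⟨⟨p, hp, h0 0, h1 0⟩, h0 1, h1 1⟩

theorem fb_Om (t : ℝ) : FB (eX ⁻¹' Om t) := by
  have e : eX ⁻¹' Om t = ⋃ j : Fin 9, ⋃ i : Ix, {x : Fin 2 → ℝ | x 0 ∈ E t (sty j) i ∧
      x 1 ∈ Ico ((lo j : ℝ) / 200 + (rw (sty j) i : ℝ)) ((hi j : ℝ) / 200 + (rw (sty j) i : ℝ))} := by
    ext x
    simp only [Om, mem_preimage, eX_apply, mem_iUnion, mem_ofPred_eq, II, mem_Ico,
      le_sub_iff_add_le, sub_lt_iff_lt_add]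
  rw [e]
  exact FB.iUnion fun j => FB.iUnion fun i => (fb_E t _ i).strip _ _

theorem xfer_tiles {O A : Set (ℝ × ℝ)} (h : Tiles2 O A) : Tiles (eX ⁻¹' O) (eX ⁻¹' A) := by
  unfold Tiles
  simp only [vadd_eq_setOf]
  refine ⟨?_, fun a ha b hb hab => ?_⟩
  · filter_upwards [eX_mp.quasiMeasurePreserving.ae h.1] with x ⟨a, ha, hx⟩
    refine ⟨eX.symm a, by simpa using ha, ?_⟩
    change eX (x - eX.symm a) ∈ O
    rwa [eX_sub, MeasurableEquiv.apply_symm_apply]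
  · have h1 := eX_mp.quasiMeasurePreserving.ae (h.2 _ ha _ hb fun e => hab (eX.injective e))
    refine measure_mono_null (fun x hx => ?_) (ae_iff.1 h1)
    exact fun hn => hn hx

theorem xfer_back {O : Set (ℝ × ℝ)} {B : Set (Fin 2 → ℝ)} (h : Tiles (eX ⁻¹' O) B) :
    Tiles2 O (eX.symm ⁻¹' B) := by
  unfold Tiles at h
  simp only [vadd_eq_setOf] at h
  have hq := (eX_mp.symm eX).quasiMeasurePreserving
  refine ⟨?_, fun a ha b hb hab => ?_⟩
  · filter_upwards [hq.ae h.1] with p ⟨a, ha, hx⟩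
    refine ⟨eX a, by simpa using ha, ?_⟩
    have h3 : eX (eX.symm p - a) ∈ O := hx
    rwa [eX_sub, MeasurableEquiv.apply_symm_apply] at h3
  · have h1 := h.2 _ ha _ hb fun e => hab (eX.symm.injective e)
    filter_upwards [hq.ae (measure_eq_zero_iff_ae_notMem.1 h1)] with p hp hp'
    refine hp ⟨?_, ?_⟩
    · change eX (eX.symm p - eX.symm a) ∈ O
      rw [eX_sub, MeasurableEquiv.apply_symm_apply, MeasurableEquiv.apply_symm_apply]
      exact hp'.1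
    · change eX (eX.symm p - eX.symm b) ∈ O
      rw [eX_sub, MeasurableEquiv.apply_symm_apply, MeasurableEquiv.apply_symm_apply]
      exact hp'.2

theorem xfer_per {B : Set (Fin 2 → ℝ)} (h : Vale.Agent.P043.Eu.LatticePeriodic B) : Per2 (eX.symm ⁻¹' B) := by
  obtain ⟨b, hb⟩ := h
  have hinv : ∀ i, ∀ a : ℝ × ℝ, eX (b i) + a ∈ eX.symm ⁻¹' B ↔ a ∈ eX.symm ⁻¹' B := by
    intro i a
    have h1 : eX.symm (eX (b i) + a) = b i + eX.symm a := by
      apply eX.injective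
      rw [MeasurableEquiv.apply_symm_apply, eX_add, MeasurableEquiv.apply_symm_apply]
    change eX.symm (eX (b i) + a) ∈ B ↔ eX.symm a ∈ B
    rw [h1]
    exact hb i _
  refine ⟨eX (b 0), eX (b 1), ?_, hinv 0, hinv 1⟩
  change b 0 0 * b 1 1 - b 0 1 * b 1 0 ≠ 0
  have h2 := (Matrix.linearIndependent_rows_iff_isUnit (A := Matrix.of b)).1 b.linearIndependent
  have h3 := ((Matrix.isUnit_iff_isUnit_det _).1 h2).ne_zero
  rwa [Matrix.det_fin_two] at h3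

/-- Removing degenerate boxes. -/
theorem FB.nondeg {d : ℕ} {S : Set (Fin d → ℝ)} (h : FB S) :
    ∃ T : Finset ((Fin d → ℝ) × (Fin d → ℝ)), (∀ p ∈ T, ∀ i, p.1 i < p.2 i) ∧
      S =ᵐ[volume] ⋃ p ∈ T, Icc p.1 p.2 := by
  classical
  obtain ⟨T, hT⟩ := h
  refine ⟨T.filter fun p => ∀ i, p.1 i < p.2 i, fun p hp => (Finset.mem_filter.1 hp).2,
    hT.trans ?_⟩
  have h0 : ∀ p ∈ (T : Set ((Fin d → ℝ) × (Fin d → ℝ))), ∀ᵐ x : Fin d → ℝ,
      x ∈ Icc p.1 p.2 → ∀ i, p.1 i < p.2 i := by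
    intro p _
    by_cases hp : ∀ i, p.1 i < p.2 i
    · exact Filter.Eventually.of_forall fun _ _ => hp
    · push Not at hp
      obtain ⟨i, hi⟩ := hp
      have hv : volume (Icc p.1 p.2) = 0 := by
        rw [Real.volume_Icc_pi]
        exact Finset.prod_eq_zero (Finset.mem_univ i) (ENNReal.ofReal_eq_zero.2 (by linarith))
      filter_upwards [measure_eq_zero_iff_ae_notMem.1 hv] with x hx hx' using absurd hx' hx
  filter_upwards [(ae_ball_iff T.countable_toSet).2 h0] with x hx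
  refine propext ⟨fun h => ?_, fun h => ?_⟩
  · obtain ⟨p, hp, hxp⟩ := mem_iUnion₂.1 h
    exact mem_iUnion₂.2 ⟨p, Finset.mem_filter.2 ⟨hp, hx p hp hxp⟩, hxp⟩
  · obtain ⟨p, hp, hxp⟩ := mem_iUnion₂.1 h
    exact mem_iUnion₂.2 ⟨p, (Finset.mem_filter.1 hp).1, hxp⟩

theorem boxes_two : ∃ T : Finset ((Fin 2 → ℝ) × (Fin 2 → ℝ)), T.Nonempty ∧
    (∀ p ∈ T, ∀ i, p.1 i < p.2 i) ∧ (∃ A, Tiles (⋃ p ∈ T, Icc p.1 p.2) A) ∧
    ∀ A, Tiles (⋃ p ∈ T, Icc p.1 p.2) A → ¬ PeriodicR A := by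
  obtain ⟨t, ht⟩ := st_t
  obtain ⟨-, hm, hp⟩ := st_om st_me t
  obtain ⟨A, hA⟩ := st_pl t (st_til fin_fin t ht.1 ht.2.1)
  obtain ⟨T, hT, he⟩ := (fb_Om t).nondeg
  have hm' : NullMeasurableSet (eX ⁻¹' Om t) := (eX.measurable hm).nullMeasurableSet
  have hp' : 0 < volume (eX ⁻¹' Om t) := by
    rwa [eX_mp.measure_preimage hm.nullMeasurableSet]
  refine ⟨T, ?_, hT, ⟨_, (xfer_tiles hA).congr hm' hp' he⟩, fun B hB hper => ?_⟩
  · rcases T.eq_empty_or_nonempty with rfl | hne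
    · rw [measure_congr he] at hp'
      simp at hp'
    · exact hne
  · exact st_non fin_clsOf fin_pig fin_cls fin_sum t ht _
      (xfer_back (hB.congr (hm'.congr he) (by rwa [← measure_congr he]) he.symm))
      (xfer_per ((periodicR_iff B).1 hper))

theorem boxes {d : ℕ} (hd : 2 ≤ d) : ∃ T : Finset ((Fin d → ℝ) × (Fin d → ℝ)), T.Nonempty ∧
    (∀ p ∈ T, ∀ i, p.1 i < p.2 i) ∧ (∃ A, Tiles (⋃ p ∈ T, Icc p.1 p.2) A) ∧
    ∀ A, Tiles (⋃ p ∈ T, Icc p.1 p.2) A → ¬ PeriodicR A := by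
  classical
  rcases hd.eq_or_lt with rfl | hd
  · exact boxes_two
  obtain ⟨P, Om, hOm, hc, ⟨B, hB⟩, hiff, -, hno⟩ := Vale.Agent.P043.H703.aperiodic_polycube d hd
  have e : (⋃ p ∈ P.image fun p => ((fun i => (p i : ℝ)), fun i => (p i : ℝ) + 1),
      Icc p.1 p.2) = Om := by
    rw [hOm, Finset.set_biUnion_finset_image]
  refine ⟨P.image fun p => ((fun i => (p i : ℝ)), fun i => (p i : ℝ) + 1), ?_, ?_, ?_, ?_⟩
  · rcases P.eq_empty_or_nonempty with rfl | hne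
    · have := hc.nonempty
      simp [hOm] at this
    · exact hne.image _
  · intro p hp i
    obtain ⟨z, -, rfl⟩ := Finset.mem_image.1 hp
    exact lt_add_one _
  · rw [e]
    exact ⟨_, (tiles_iff _ _).2 ((hiff _).2 ⟨0, B, hB, rfl⟩)⟩
  · rw [e]
    exact fun A hA hper => (hno A ((tiles_iff _ _).1 hA)).1 ((periodicR_iff A).1 hper)

end Vale.Agent.N043
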