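import Mathlib

/-!
# P043: statement-level definitions
-/

namespace Vale.Agent.N043

open MeasureTheory

/-- `A ⊆ ℤ^d` is invariant under a subgroup of finite index. -/
def PeriodicZ {d : ℕ} (A : Set (Fin d → ℤ)) : Prop :=
  ∃ L : AddSubgroup (Fin d → ℤ), L.FiniteIndex ∧ ∀ h ∈ L, (fun x => h + x) '' A = A

/-- The translates `a + Ω`, `a ∈ A`, cover almost every point of `ℝ^d` and two different ones
meet in a null set. -/
def Tiles {d : ℕ} (Ω A : Set (Fin d → ℝ)) : Prop :=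
  (∀ᵐ x : Fin d → ℝ, ∃ a ∈ A, x ∈ (fun y => a + y) '' Ω) ∧
    ∀ a ∈ A, ∀ b ∈ A, a ≠ b → volume ((fun y => a + y) '' Ω ∩ (fun y => b + y) '' Ω) = 0

/-- `A ⊆ ℝ^d` is invariant under a lattice of rank `d` (a discrete subgroup spanning `ℝ^d`). -/
def PeriodicR {d : ℕ} (A : Set (Fin d → ℝ)) : Prop :=
  ∃ (L : Submodule ℤ (Fin d → ℝ)) (_ : DiscreteTopology L), IsZLattice ℝ L ∧
    ∀ v ∈ L, (fun x => v + x) '' A = A

end Vale.Agent.N043
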