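import Mathlib
import Vale.Agent.P043.Eu.Defs

/-!
Every tiling of the real line by translates of one bounded measurable set is periodic.
-/

namespace Vale.Agent.N043.Line

open MeasureTheory Set Filter Topology ProbabilityTheory
open scoped FourierTransform Convolution

/-- A function of exponential weight whose integrals over all reflected translates of a bounded set
of positive measure vanish is zero at its points of continuity. -/
theorem lap {S : Set ℝ} {L : ℝ} (hS : MeasurableSet S) (hL : S ⊆ Ioo (-L) L)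
    (hpos : 0 < volume.real S) {N : ℝ → ℝ} {σ : ℝ}
    (hN : Integrable fun y => Real.exp (-σ * y) * N y)
    (h0 : ∀ x, ∫ u in S, N (x - u) = 0) {y0 : ℝ} (hc : ContinuousAt N y0) : N y0 = 0 := by
  have hfin : volume S ≠ ⊤ := ((measure_mono hL).trans_lt (by simp)).ne
  have : IsFiniteMeasure (volume.restrict S) := ⟨by simpa using hfin.lt_top⟩
  set f : ℝ → ℂ := fun y => ((Real.exp (-σ * y) * N y : ℝ) : ℂ) with hf
  set g : ℝ → ℂ := S.indicator fun u => ((Real.exp (-σ * u) : ℝ) : ℂ) with hg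
  have hint : ∀ t : ℝ, Integrable (fun u => Real.exp (t * u)) (volume.restrict S) := by
    intro t
    refine Integrable.of_bound (by fun_prop) (Real.exp (|t| * L)) ?_
    filter_upwards [ae_restrict_mem hS] with u hu
    rw [Real.norm_eq_abs, abs_of_pos (Real.exp_pos _), Real.exp_le_exp]
    have h1 : |u| ≤ L := abs_le.2 ⟨(hL hu).1.le, (hL hu).2.le⟩
    calc t * u ≤ |t * u| := le_abs_self _
      _ = |t| * |u| := abs_mul _ _
      _ ≤ |t| * L := by gcongr
  have hfi : Integrable f := hN.ofReal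
  have hgi : Integrable g := by
    rw [hg, integrable_indicator_iff hS]
    exact (hint (-σ)).ofReal
  have hconv : g ⋆[ContinuousLinearMap.mul ℂ ℂ] f = fun _ => 0 := by
    funext x
    have : ∀ u, g u * f (x - u) =
        S.indicator (fun u => ((Real.exp (-σ * x) * N (x - u) : ℝ) : ℂ)) u := by
      intro u
      by_cases hu : u ∈ S
      · simp only [hg, hf, indicator_of_mem hu]
        rw [← Complex.ofReal_mul, ← mul_assoc, ← Real.exp_add]
        congr 3
        ring
      · simp [hg, indicator_of_notMem hu]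
    simp only [convolution_def, ContinuousLinearMap.mul_apply', this]
    rw [integral_indicator hS, integral_complex_ofReal, integral_const_mul, h0]
    simp
  have hmul : ∀ ξ : ℝ, 𝓕 g ξ * 𝓕 f ξ = 0 := by
    intro ξ
    rw [← Real.fourier_mul_convolution_eq hgi hfi, hconv]
    simp [Real.fourier_real_eq]
  set Φ : ℂ → ℂ := complexMGF id (volume.restrict S) with hΦ
  have hΦa : AnalyticOnNhd ℂ Φ univ := by
    have h1 : integrableExpSet id (volume.restrict S) = univ := by
      ext t
      simpa [integrableExpSet] using hint t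
    have := analyticOnNhd_complexMGF (X := id) (μ := volume.restrict S)
    simpa [h1] using this
  have hΦ0 : Φ 0 ≠ 0 := by
    simp [hΦ, complexMGF, hpos.ne']
  have hgΦ : ∀ ξ : ℝ, 𝓕 g ξ = Φ (-σ - 2 * Real.pi * ξ * Complex.I) := by
    intro ξ
    rw [Real.fourier_real_eq_integral_exp_smul, hΦ, complexMGF, ← integral_indicator hS]
    congr 1
    funext u
    by_cases hu : u ∈ S
    · simp only [hg, indicator_of_mem hu, smul_eq_mul, id]
      rw [Complex.ofReal_exp, ← Complex.exp_add]
      congr 1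
      push_cast
      ring
    · simp [hg, indicator_of_notMem hu]
  have hfc : Continuous (𝓕 f) := by
    exact VectorFourier.fourierIntegral_continuous Real.continuous_fourierChar
      (by fun_prop) hfi
  have hf0 : ∀ ξ : ℝ, 𝓕 f ξ = 0 := by
    intro ξ0
    by_contra hne
    have h1 : ∀ᶠ ξ in 𝓝 ξ0, 𝓕 f ξ ≠ 0 := hfc.continuousAt.eventually_ne hne
    have h2 : ∀ᶠ ξ : ℝ in 𝓝 ξ0, Φ (-σ - 2 * Real.pi * ξ * Complex.I) = 0 := by
      filter_upwards [h1] with ξ hξ
      rw [← hgΦ]
      exact (mul_eq_zero.1 (hmul ξ)).resolve_right hξ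
    have h3 : Tendsto (fun ξ : ℝ => (-σ - 2 * Real.pi * ξ * Complex.I : ℂ)) (𝓝[≠] ξ0)
        (𝓝[≠] (-σ - 2 * Real.pi * ξ0 * Complex.I)) := by
      refine tendsto_nhdsWithin_iff.2 ⟨?_, ?_⟩
      · exact (Continuous.tendsto (by fun_prop) ξ0).mono_left nhdsWithin_le_nhds
      · filter_upwards [self_mem_nhdsWithin] with ξ hξ h
        apply hξ
        have h' := congrArg Complex.im h
        simpa [Real.pi_ne_zero] using h'
    have h4 : ∃ᶠ z in 𝓝[≠] (-σ - 2 * Real.pi * ξ0 * Complex.I : ℂ), Φ z = 0 :=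
      h3.frequently (h2.filter_mono nhdsWithin_le_nhds).frequently
    exact hΦ0 (hΦa.eqOn_zero_of_preconnected_of_frequently_eq_zero isPreconnected_univ
      (mem_univ _) h4 (mem_univ 0))
  have hz : 𝓕 f = fun _ => 0 := funext hf0
  have hfy : ContinuousAt f y0 := by
    refine Complex.continuous_ofReal.continuousAt.comp ?_
    exact ContinuousAt.mul (by fun_prop) hc
  have := hfi.fourierInv_fourier_eq (by rw [hz]; exact integrable_zero _ _ _) hfy
  rw [hz, Real.fourierInv_eq] at this
  simp only [smul_zero, integral_zero, hf] at this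
  have h5 : Real.exp (-σ * y0) * N y0 = 0 := by exact_mod_cast this.symm
  exact (mul_eq_zero.1 h5).resolve_left (Real.exp_pos _).ne'

/-- The measure of the part of `S` to the left of `x`. -/
noncomputable def cdfS (S : Set ℝ) (x : ℝ) : ℝ := volume.real (S ∩ Iic x)

section Cdf

variable {S : Set ℝ} {L : ℝ}

theorem fin_of (hL : S ⊆ Ioo (-L) L) (T : Set ℝ) : volume (S ∩ T) ≠ ⊤ :=
  ((measure_mono (inter_subset_left.trans hL)).trans_lt (by simp)).ne

theorem cdf_sub (hL : S ⊆ Ioo (-L) L) {x y : ℝ} (h : x ≤ y) :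
    cdfS S y - cdfS S x = volume.real (S ∩ Ioc x y) := by
  have h1 := measureReal_inter_add_sdiff (μ := volume) (s := S ∩ Iic y) (t := Iic x)
    measurableSet_Iic (fin_of hL _)
  have h2 : S ∩ Iic y ∩ Iic x = S ∩ Iic x := by
    rw [inter_assoc, Iic_inter_Iic, min_eq_right h]
  have h3 : (S ∩ Iic y) \ Iic x = S ∩ Ioc x y := by
    rw [inter_sdiff_assoc, Iic_sdiff_Iic]
  rw [h2, h3] at h1
  simp only [cdfS]
  linarith

theorem cdf_le (hL : S ⊆ Ioo (-L) L) {x y : ℝ} (h : x ≤ y) : cdfS S x ≤ cdfS S y := by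
  have := cdf_sub hL h
  have h2 : 0 ≤ volume.real (S ∩ Ioc x y) := measureReal_nonneg
  linarith

theorem cdf_lip (hL : S ⊆ Ioo (-L) L) {x y : ℝ} (h : x ≤ y) : cdfS S y - cdfS S x ≤ y - x := by
  rw [cdf_sub hL h]
  calc volume.real (S ∩ Ioc x y) ≤ volume.real (Ioc x y) :=
        measureReal_mono inter_subset_right (by simp)
    _ = y - x := by simp [h]

theorem cdf_cont (hL : S ⊆ Ioo (-L) L) : Continuous (cdfS S) := by
  refine (LipschitzWith.of_dist_le_mul (K := 1) fun x y => ?_).continuous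
  simp only [Real.dist_eq, NNReal.coe_one, one_mul]
  rcases le_total x y with h | h
  · have := cdf_le hL h
    have := cdf_lip hL h
    rw [abs_sub_comm, abs_of_nonneg (by linarith), abs_sub_comm, abs_of_nonneg (by linarith)]
    linarith
  · have := cdf_le hL h
    have := cdf_lip hL h
    rw [abs_of_nonneg (by linarith), abs_of_nonneg (by linarith)]
    linarith

theorem cdf_left (hL : S ⊆ Ioo (-L) L) {x : ℝ} (h : x ≤ -L) : cdfS S x = 0 := by
  have : S ∩ Iic x = ∅ := by
    ext u
    simp only [mem_inter_iff, mem_Iic, mem_empty_iff_false, iff_false, not_and, not_le]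
    exact fun hu => h.trans_lt (hL hu).1
  simp [cdfS, this]

theorem cdf_right (hL : S ⊆ Ioo (-L) L) {x : ℝ} (h : L ≤ x) : cdfS S x = volume.real S := by
  have : S ∩ Iic x = S := inter_eq_left.2 fun u hu => (hL hu).2.le.trans h
  simp [cdfS, this]

theorem cdf_nonneg (x : ℝ) : 0 ≤ cdfS S x := measureReal_nonneg

theorem cdf_le_total (hL : S ⊆ Ioo (-L) L) (x : ℝ) : cdfS S x ≤ volume.real S := by
  refine measureReal_mono inter_subset_left ?_
  simpa using fin_of hL univ

/-- a point of density -/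
theorem exists_density (hS : MeasurableSet S) (hL : S ⊆ Ioo (-L) L) (hpos : 0 < volume.real S) :
    ∃ x0 ε0 : ℝ, |x0| ≤ L ∧ 0 < ε0 ∧ ε0 ≤ L ∧ ∀ ε, 0 < ε → ε ≤ ε0 →
      2 * ε - ε / 4 ≤ cdfS S (x0 + ε) - cdfS S (x0 - ε) := by
  have hne : volume.restrict S ≠ 0 := by
    intro h
    rw [Measure.restrict_eq_zero] at h
    simp [Measure.real, h] at hpos
  have : (ae (volume.restrict S)).NeBot := ae_neBot.2 hne
  obtain ⟨x0, hx0, hd⟩ :=
    ((ae_restrict_mem hS).and (Besicovitch.ae_tendsto_measure_inter_div volume S)).exists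
  have hL0 : 0 < L := by have := hL hx0; linarith [this.1, this.2]
  have h1 : ∀ᶠ r in 𝓝[>] (0 : ℝ), ENNReal.ofReal (7 / 8) <
      volume (S ∩ Metric.closedBall x0 r) / volume (Metric.closedBall x0 r) :=
    hd.eventually (lt_mem_nhds (by rw [ENNReal.ofReal_lt_one]; norm_num))
  obtain ⟨δ, hδ, h2⟩ := mem_nhdsGT_iff_exists_Ioc_subset.1 h1
  refine ⟨x0, min δ L, abs_le.2 ⟨(hL hx0).1.le, (hL hx0).2.le⟩, lt_min hδ hL0, min_le_right _ _,
    fun ε hε hε' => ?_⟩
  have h3 := h2 ⟨hε, hε'.trans (min_le_left _ _)⟩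
  simp only [mem_ofPred_eq, Real.volume_closedBall] at h3
  rw [ENNReal.lt_div_iff_mul_lt (Or.inl (by simpa using hε)) (Or.inl ENNReal.ofReal_ne_top),
    ← ENNReal.ofReal_mul (by norm_num)] at h3
  have h4 := (ENNReal.ofReal_le_iff_le_toReal (fin_of hL _)).1 h3.le
  rw [cdf_sub hL (by linarith)]
  have h5 : volume (S ∩ Metric.closedBall x0 ε) = volume (S ∩ Ioc (x0 - ε) (x0 + ε)) := by
    rw [Real.closedBall_eq_Icc]
    exact measure_congr (EventuallyEq.inter (EventuallyEq.refl _ _) Ioc_ae_eq_Icc.symm)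
  rw [h5] at h4
  simp only [Measure.real]
  linarith

end Cdf

/-- `i * m + b i` is an increasing sequence of translations which solves the integrated tiling
equation. -/
structure Good (F : ℝ → ℝ) (m L : ℝ) (b : ℤ → ℝ) : Prop where
  bd : ∀ i, |b i| ≤ L
  mono : Monotone fun i : ℤ => i * m + b i
  eq : ∀ (x : ℝ) (p q : ℤ), p * m + 2 * L ≤ x → x + 2 * L ≤ q * m →
    ∑ i ∈ Finset.Ioc p q, F (x - (i * m + b i)) = x - p * m

theorem Good.shift {F : ℝ → ℝ} {m L : ℝ} {b : ℤ → ℝ} (h : Good F m L b) (r : ℤ) :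
    Good F m L fun i => b (i + r) where
  bd i := h.bd _
  mono i j hij := by
    have := h.mono (add_le_add_left hij r)
    simp only at this ⊢
    push_cast at this
    linarith
  eq x p q hp hq := by
    have := h.eq (x + r * m) (p + r) (q + r) (by push_cast; linarith) (by push_cast; linarith)
    rw [← Finset.map_add_right_Ioc, Finset.sum_map] at this
    simp only [addRightEmbedding_apply] at this
    push_cast at this
    have h2 : ∀ i : ℤ, x + r * m - ((i + r) * m + b (i + r)) = x - (i * m + b (i + r)) := by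
      intro i
      ring
    simp only [h2] at this
    linarith

theorem Good.lim {F : ℝ → ℝ} (hF : Continuous F) {m L : ℝ} {u : ℕ → ℤ → ℝ} {b : ℤ → ℝ}
    (h : ∀ n, Good F m L (u n)) (hl : Tendsto u atTop (𝓝 b)) : Good F m L b := by
  have hi : ∀ i, Tendsto (fun n => u n i) atTop (𝓝 (b i)) := tendsto_pi_nhds.1 hl
  refine ⟨fun i => le_of_tendsto' (hi i).abs fun n => (h n).bd i, fun i j hij => ?_,
    fun x p q hp hq => ?_⟩
  · exact le_of_tendsto_of_tendsto' ((hi i).const_add _) ((hi j).const_add _)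
      fun n => (h n).mono hij
  · have h1 : Tendsto (fun n => ∑ i ∈ Finset.Ioc p q, F (x - (i * m + u n i))) atTop
        (𝓝 (∑ i ∈ Finset.Ioc p q, F (x - (i * m + b i)))) :=
      tendsto_finsetSum _ fun i _ =>
        (hF.tendsto _).comp (((hi i).const_add _).const_sub _)
    simp only [fun n => (h n).eq x p q hp hq] at h1
    exact tendsto_nhds_unique h1 tendsto_const_nhds

section Exp

variable {S : Set ℝ} {L : ℝ}

/-- two solutions which are close near `j` are twice as close at `j` -/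
theorem expansive (hS : MeasurableSet S) (hL : S ⊆ Ioo (-L) L) (hpos : 0 < volume.real S) :
    ∃ (ε0 : ℝ) (w : ℕ), 0 < ε0 ∧ 0 < w ∧ ∀ b b' : ℤ → ℝ, Good (cdfS S) (volume.real S) L b →
      Good (cdfS S) (volume.real S) L b' → ∀ (j : ℤ) (ε : ℝ), 0 < ε → ε ≤ ε0 →
        (∀ i, j - w ≤ i → i ≤ j + w → |b' i - b i| ≤ ε) → |b' j - b j| ≤ ε / 2 := by
  obtain ⟨x0, ε0, hx0, hε0, hεL, hd⟩ := exists_density hS hL hpos
  set m := volume.real S with hm
  set F := cdfS S with hF
  obtain ⟨w, hw⟩ := exists_nat_gt (5 * L / m)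
  rw [div_lt_iff₀ hpos] at hw
  have hw0 : 0 < w := by
    rcases Nat.eq_zero_or_pos w with h | h
    · subst h
      simp only [Nat.cast_zero, zero_mul] at hw
      linarith
    · exact h
  refine ⟨ε0, w, hε0, hw0, fun b b' hb hb' j ε hε hε' hc => ?_⟩
  have hbj := abs_le.1 (hb.bd j)
  have hx := abs_le.1 hx0
  set x : ℝ := j * m + b j + x0 with hxdef
  have hp : ∀ s : ℝ, |s| ≤ ε → ((j - w : ℤ) : ℝ) * m + 2 * L ≤ x + s ∧
      x + s + 2 * L ≤ ((j + w : ℤ) : ℝ) * m := by
    intro s hs
    have := abs_le.1 hs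
    push_cast
    constructor <;> nlinarith
  have e1 := hb.eq (x + ε) _ _ (hp ε (by rw [abs_of_pos hε])).1 (hp ε (by rw [abs_of_pos hε])).2
  have e2 := hb.eq (x + -ε) _ _ (hp (-ε) (by rw [abs_neg, abs_of_pos hε])).1
    (hp (-ε) (by rw [abs_neg, abs_of_pos hε])).2
  have e3 := hb.eq (x + 0) _ _ (hp 0 (by simpa using hε.le)).1 (hp 0 (by simpa using hε.le)).2
  have e4 := hb'.eq (x + 0) _ _ (hp 0 (by simpa using hε.le)).1 (hp 0 (by simpa using hε.le)).2
  have hj : j ∈ Finset.Ioc (j - w) (j + w) := by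
    rw [Finset.mem_Ioc]
    omega
  rw [← Finset.add_sum_erase _ _ hj] at e1 e2 e3 e4
  set T := (Finset.Ioc (j - w) (j + w)).erase j with hT
  have hle : ∀ i ∈ T, |F (x + 0 - (i * m + b' i)) - F (x + 0 - (i * m + b i))| ≤
      F (x + ε - (i * m + b i)) - F (x + -ε - (i * m + b i)) := by
    intro i hi
    have hi' := Finset.mem_Ioc.1 (Finset.mem_of_mem_erase hi)
    have h1 := abs_le.1 (hc i hi'.1.le hi'.2)
    have a1 : F (x + 0 - (i * m + b' i)) ≤ F (x + ε - (i * m + b i)) := cdf_le hL (by linarith)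
    have a2 : F (x + -ε - (i * m + b i)) ≤ F (x + 0 - (i * m + b' i)) := cdf_le hL (by linarith)
    have a3 : F (x + 0 - (i * m + b i)) ≤ F (x + ε - (i * m + b i)) := cdf_le hL (by linarith)
    have a4 : F (x + -ε - (i * m + b i)) ≤ F (x + 0 - (i * m + b i)) := cdf_le hL (by linarith)
    rw [abs_le]
    constructor <;> linarith
  have hsum := (Finset.abs_sum_le_sum_abs _ T).trans (Finset.sum_le_sum hle)
  rw [Finset.sum_sub_distrib, Finset.sum_sub_distrib] at hsum
  have hD := hd ε hε hε'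
  have r1 : x + ε - (j * m + b j) = x0 + ε := by rw [hxdef]; ring
  have r2 : x + -ε - (j * m + b j) = x0 - ε := by rw [hxdef]; ring
  have r3 : x + 0 - (j * m + b j) = x0 := by rw [hxdef]; ring
  have r4 : x + 0 - (j * m + b' j) = x0 - (b' j - b j) := by rw [hxdef]; ring
  rw [r1] at e1
  rw [r2] at e2
  rw [r3] at e3
  rw [r4] at e4
  have ht := abs_le.1 (hc j (by omega) (by omega))
  have hs := abs_le.1 hsum
  set t := b' j - b j with htdef
  have g1 : F (x0 + ε) - F x0 ≤ x0 + ε - x0 := cdf_lip hL (by linarith)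
  have g2 : F x0 - F (x0 - ε) ≤ x0 - (x0 - ε) := cdf_lip hL (by linarith)
  have g3 : F (x0 + ε) - F (x0 - t) ≤ x0 + ε - (x0 - t) := cdf_lip hL (by linarith)
  have g4 : F (x0 - t) - F (x0 - ε) ≤ x0 - t - (x0 - ε) := cdf_lip hL (by linarith)
  rw [abs_le]
  constructor <;> linarith

end Exp

/-- the counting function of an increasing sequence at bounded distance from a progression -/
theorem exists_count {F : ℝ → ℝ} {m L : ℝ} (hm : 0 < m) {b : ℤ → ℝ} (h : Good F m L b) :
    ∃ n : ℝ → ℤ, ∀ i y, i * m + b i ≤ y ↔ i ≤ n y := by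
  have key : ∀ y : ℝ, ∃ k : ℤ, k * m + b k ≤ y ∧ ∀ z : ℤ, z * m + b z ≤ y → z ≤ k := by
    intro y
    refine Int.exists_greatest_of_bdd ⟨⌈(y + L) / m⌉, fun z hz => ?_⟩ ⟨⌊(y - L) / m⌋, ?_⟩
    · have h1 := abs_le.1 (h.bd z)
      have h2 : (z : ℝ) ≤ (y + L) / m := by
        rw [le_div_iff₀ hm]
        linarith
      exact_mod_cast h2.trans (Int.le_ceil _)
    · have h1 := abs_le.1 (h.bd ⌊(y - L) / m⌋)
      have h2 := Int.floor_le ((y - L) / m)
      rw [le_div_iff₀ hm] at h2
      linarith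
  choose n hn hn' using key
  exact ⟨n, fun i y => ⟨hn' y i, fun hi => (h.mono hi).trans (hn y)⟩⟩

theorem sum_count {k p q : ℤ} (hp : p ≤ k) (hq : k ≤ q) :
    ∑ i ∈ Finset.Ioc p q, (if i ≤ k then (1 : ℝ) else 0) = k - p := by
  rw [Finset.sum_boole]
  have : (Finset.Ioc p q).filter (fun i => i ≤ k) = Finset.Ioc p k := by
    ext i
    simp only [Finset.mem_filter, Finset.mem_Ioc]
    omega
  rw [this, Int.card_Ioc]
  have h2 : (((k - p).toNat : ℤ) : ℝ) = ((k - p : ℤ) : ℝ) := by
    rw [Int.toNat_of_nonneg (by omega)]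
  push_cast at h2
  exact h2

section Uniq

variable {S : Set ℝ} {L : ℝ}

theorem int_count (hS : MeasurableSet S) (hL : S ⊆ Ioo (-L) L) (hpos : 0 < volume.real S)
    {b : ℤ → ℝ} (h : Good (cdfS S) (volume.real S) L b) {n : ℝ → ℤ}
    (hn : ∀ i y, i * volume.real S + b i ≤ y ↔ i ≤ n y) (x : ℝ) :
    IntegrableOn (fun u => (n (x - u) : ℝ)) S ∧
      ∫ u in S, (n (x - u) : ℝ) = x := by
  set m := volume.real S with hm
  have hfin : volume S ≠ ⊤ := by simpa using fin_of hL univ
  have : IsFiniteMeasure (volume.restrict S) := ⟨by simpa using hfin.lt_top⟩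
  set p : ℤ := ⌊(x - 2 * L) / m⌋ with hp
  set q : ℤ := ⌈(x + 2 * L) / m⌉ with hq
  have hp1 : p * m + 2 * L ≤ x := by
    have := Int.floor_le ((x - 2 * L) / m)
    rw [le_div_iff₀ hpos] at this
    linarith
  have hq1 : x + 2 * L ≤ q * m := by
    have := Int.le_ceil ((x + 2 * L) / m)
    rwa [div_le_iff₀ hpos] at this
  have hpt : ∀ u ∈ S, (n (x - u) : ℝ) =
      p + ∑ i ∈ Finset.Ioc p q, (Iic (x - (i * m + b i))).indicator (fun _ => (1 : ℝ)) u := by
    intro u hu
    have h1 := hL hu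
    have h2 : p ≤ n (x - u) := by
      rw [← hn]
      have := abs_le.1 (h.bd p)
      linarith [h1.2]
    have h3 : n (x - u) ≤ q := by
      by_contra h4
      have h5 := (hn (q + 1) (x - u)).2 (by omega)
      have := abs_le.1 (h.bd (q + 1))
      push_cast at h5
      linarith [h1.1]
    have h6 := sum_count h2 h3
    have h7 : ∀ i : ℤ, (Iic (x - (i * m + b i))).indicator (fun _ => (1 : ℝ)) u =
        if i ≤ n (x - u) then 1 else 0 := by
      intro i
      simp only [indicator_apply, mem_Iic, ← hn]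
      congr 1
      exact propext ⟨fun h => by linarith, fun h => by linarith⟩
    simp only [h7, h6]
    ring
  have hi : ∀ i : ℤ, Integrable ((Iic (x - (i * m + b i))).indicator fun _ => (1 : ℝ))
      (volume.restrict S) := fun i => (integrable_const _).indicator measurableSet_Iic
  have hsum := integrable_finsetSum (Finset.Ioc p q) fun i _ => hi i
  constructor
  · exact IntegrableOn.congr_fun ((integrable_const _).add hsum) (fun u hu => (hpt u hu).symm) hS
  · rw [setIntegral_congr_fun hS hpt, integral_add (integrable_const _) hsum,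
      integral_finsetSum _ fun i _ => hi i]
    have h8 : ∀ i : ℤ, ∫ u in S, (Iic (x - (i * m + b i))).indicator (fun _ => (1 : ℝ)) u =
        cdfS S (x - (i * m + b i)) := by
      intro i
      rw [integral_indicator measurableSet_Iic]
      simp [cdfS, Measure.real, inter_comm]
    simp only [h8, h.eq x p q hp1 hq1]
    simp [← hm]
    ring

theorem weight_int {m L θ C : ℝ} (hm : 0 < m) (hθ : 0 < θ) {b b' : ℤ → ℝ} (hb : ∀ i, |b i| ≤ L)
    (hb' : ∀ i, |b' i| ≤ L) {n n' : ℝ → ℤ} (hn : ∀ i y, i * m + b i ≤ y ↔ i ≤ n y)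
    (hn' : ∀ i y, i * m + b' i ≤ y ↔ i ≤ n' y) (h1 : Measurable fun y => (n y : ℝ))
    (h2 : Measurable fun y => (n' y : ℝ))
    (hC : ∀ i : ℤ, i ≤ 0 → |b' i - b i| ≤ C * Real.exp (2 * θ * i)) :
    Integrable fun y => Real.exp (-(θ / m) * y) * ((n y : ℝ) - n' y) := by
  refine ⟨(Measurable.mul (by fun_prop) (h1.sub h2)).aestronglyMeasurable, ?_⟩
  set I : ℤ → Set ℝ := fun i => Ico (i * m + min (b i) (b' i)) (i * m + max (b i) (b' i)) with hI
  set c : ℤ → ℝ := fun i => Real.exp (θ / m * L - θ * i) with hc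
  have hpt : ∀ y, ‖Real.exp (-(θ / m) * y) * ((n y : ℝ) - n' y)‖ₑ ≤
      ∑' i, (I i).indicator (fun _ => ENNReal.ofReal (c i)) y := by
    intro y
    refine le_trans ?_ (ENNReal.sum_le_tsum (Finset.Ioc (min (n y) (n' y)) (max (n y) (n' y))))
    have h3 : ∀ i ∈ Finset.Ioc (min (n y) (n' y)) (max (n y) (n' y)),
        ENNReal.ofReal (Real.exp (-(θ / m) * y)) ≤
          (I i).indicator (fun _ => ENNReal.ofReal (c i)) y := by
      intro i hi
      rw [Finset.mem_Ioc, min_lt_iff, le_max_iff] at hi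
      have hy : y ∈ I i := by
        simp only [hI, mem_Ico]
        constructor
        · rcases hi.2 with h | h
          · exact le_trans (by gcongr; exact min_le_left _ _) ((hn i y).2 h)
          · exact le_trans (by gcongr; exact min_le_right _ _) ((hn' i y).2 h)
        · rcases hi.1 with h | h
          · exact lt_of_lt_of_le (not_le.1 fun h' => absurd ((hn i y).1 h') (not_le.2 h))
              (by gcongr; exact le_max_left _ _)
          · exact lt_of_lt_of_le (not_le.1 fun h' => absurd ((hn' i y).1 h') (not_le.2 h))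
              (by gcongr; exact le_max_right _ _)
      rw [indicator_of_mem hy]
      refine ENNReal.ofReal_le_ofReal (Real.exp_le_exp.2 ?_)
      have h4 : i * m - L ≤ y := by
        have := hy.1
        have h5 : -L ≤ min (b i) (b' i) := le_min (abs_le.1 (hb i)).1 (abs_le.1 (hb' i)).1
        linarith
      have h6 : θ / m * (i * m - L) ≤ θ / m * y := by gcongr
      have h7 : θ / m * (i * m - L) = θ * i - θ / m * L := by field_simp
      linarith
    refine le_trans ?_ (Finset.card_nsmul_le_sum _ _ _ h3)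
    rw [Int.card_Ioc, ← ofReal_norm, norm_mul, Real.norm_eq_abs, Real.norm_eq_abs,
      abs_of_pos (Real.exp_pos _), nsmul_eq_mul, ← ENNReal.ofReal_natCast,
      ← ENNReal.ofReal_mul (Nat.cast_nonneg _), mul_comm]
    refine ENNReal.ofReal_le_ofReal (le_of_eq ?_)
    congr 1
    have h8 : (((max (n y) (n' y) - min (n y) (n' y)).toNat : ℤ) : ℝ) =
        ((|n y - n' y| : ℤ) : ℝ) := by
      rw [Int.toNat_of_nonneg (by omega), max_sub_min_eq_abs']
    push_cast at h8
    exact h8.symm
  refine lt_of_le_of_lt (lintegral_mono hpt) ?_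
  rw [lintegral_tsum fun i => (measurable_const.indicator measurableSet_Ico).aemeasurable]
  have h9 : ∀ i, ∫⁻ y, (I i).indicator (fun _ => ENNReal.ofReal (c i)) y =
      ENNReal.ofReal (c i * |b' i - b i|) := by
    intro i
    rw [lintegral_indicator_const measurableSet_Ico, Real.volume_Ico,
      ← ENNReal.ofReal_mul (Real.exp_pos _).le, add_sub_add_left_eq_sub, max_sub_min_eq_abs]
  rw [tsum_congr h9]
  have hg : Summable fun k : ℕ => Real.exp (-θ) ^ k :=
    summable_geometric_of_lt_one (Real.exp_pos _).le (by rw [Real.exp_lt_one_iff]; linarith)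
  have hnn : ∀ i, 0 ≤ c i * |b' i - b i| := fun i => mul_nonneg (Real.exp_pos _).le (abs_nonneg _)
  refine (Summable.tsum_ofReal_ne_top ?_).lt_top
  refine Summable.of_nat_of_neg ?_ ?_
  · refine Summable.of_nonneg_of_le (fun k => hnn _) (fun k => ?_)
      (hg.mul_left (Real.exp (θ / m * L) * (2 * L)))
    have h10 : |b' k - b k| ≤ 2 * L := by
      have := abs_sub (b' k) (b k)
      linarith [hb k, hb' k]
    have h11 : c k = Real.exp (θ / m * L) * Real.exp (-θ) ^ k := by
      rw [← Real.exp_nat_mul, ← Real.exp_add]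
      simp only [hc]
      congr 1
      push_cast
      ring
    rw [h11]
    calc _ ≤ Real.exp (θ / m * L) * Real.exp (-θ) ^ k * (2 * L) := by gcongr
      _ = _ := by ring
  · refine Summable.of_nonneg_of_le (fun k => hnn _) (fun k => ?_)
      (hg.mul_left (Real.exp (θ / m * L) * C))
    have h10 := hC (-k) (by omega)
    have h11 : c (-k) * Real.exp (2 * θ * ((-k : ℤ) : ℝ)) =
        Real.exp (θ / m * L) * Real.exp (-θ) ^ k := by
      rw [← Real.exp_nat_mul, ← Real.exp_add, ← Real.exp_add]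
      congr 1
      push_cast
      ring
    calc _ ≤ c (-k) * (C * Real.exp (2 * θ * ((-k : ℤ) : ℝ))) := by gcongr
      _ = c (-k) * Real.exp (2 * θ * ((-k : ℤ) : ℝ)) * C := by ring
      _ = _ := by rw [h11]; ring

/-- two solutions which approach each other exponentially on the left are equal -/
theorem eq_of_decay (hS : MeasurableSet S) (hL : S ⊆ Ioo (-L) L) (hpos : 0 < volume.real S)
    {b b' : ℤ → ℝ} (h : Good (cdfS S) (volume.real S) L b)
    (h' : Good (cdfS S) (volume.real S) L b') {θ C : ℝ} (hθ : 0 < θ)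
    (hC : ∀ i : ℤ, i ≤ 0 → |b' i - b i| ≤ C * Real.exp (2 * θ * i)) (j : ℤ) : b' j ≤ b j := by
  obtain ⟨n, hn⟩ := exists_count hpos h
  obtain ⟨n', hn'⟩ := exists_count hpos h'
  have hmo : Monotone fun y => (n y : ℝ) := fun y z hyz =>
    Int.cast_le.2 ((hn _ _).1 (((hn _ _).2 le_rfl).trans hyz))
  have hmo' : Monotone fun y => (n' y : ℝ) := fun y z hyz =>
    Int.cast_le.2 ((hn' _ _).1 (((hn' _ _).2 le_rfl).trans hyz))
  by_contra hlt
  rw [not_le] at hlt
  have hcount := hmo.countable_not_continuousAt.union hmo'.countable_not_continuousAt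
  obtain ⟨y, hy, hy'⟩ : ∃ y ∈ Ioo (j * volume.real S + b j) (j * volume.real S + b' j),
      y ∉ {x | ¬ContinuousAt (fun y => (n y : ℝ)) x} ∪
        {x | ¬ContinuousAt (fun y => (n' y : ℝ)) x} := by
    by_contra hno
    push Not at hno
    have := measure_mono_null hno (hcount.measure_zero volume)
    rw [Real.volume_Ioo, ENNReal.ofReal_eq_zero] at this
    linarith
  simp only [mem_union, mem_ofPred_eq, not_or, not_not] at hy'
  have := lap hS hL hpos (N := fun y => (n y : ℝ) - n' y)
    (weight_int hpos hθ h.bd h'.bd hn hn' hmo.measurable hmo'.measurable hC)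
    (fun x => by
      rw [integral_sub (int_count hS hL hpos h hn x).1 (int_count hS hL hpos h' hn' x).1,
        (int_count hS hL hpos h hn x).2, (int_count hS hL hpos h' hn' x).2, sub_self])
    (hy'.1.sub hy'.2)
  have h1 := (hn j y).1 hy.1.le
  have h2 : ¬ j ≤ n' y := fun h => absurd ((hn' j y).2 h) (not_le.2 hy.2)
  have h3 : n y = n' y := by exact_mod_cast sub_eq_zero.1 this
  omega

/-- two solutions which are close on the left are equal -/
theorem eq_of_close (hS : MeasurableSet S) (hL : S ⊆ Ioo (-L) L) (hpos : 0 < volume.real S) :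
    ∃ ε0 : ℝ, 0 < ε0 ∧ ∀ b b' : ℤ → ℝ, Good (cdfS S) (volume.real S) L b →
      Good (cdfS S) (volume.real S) L b' → (∀ i, i ≤ 0 → |b' i - b i| ≤ ε0) → b' = b := by
  obtain ⟨ε0, w, hε0, hw, hE⟩ := expansive hS hL hpos
  refine ⟨ε0, hε0, fun b b' h h' hc => ?_⟩
  have hk : ∀ k : ℕ, ∀ i : ℤ, i ≤ -(k * w) → |b' i - b i| ≤ ε0 / 2 ^ k := by
    intro k
    induction k with
    | zero => simpa using hc
    | succ k ih =>
      intro j hj
      have := hE b b' h h' j (ε0 / 2 ^ k) (by positivity)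
        (div_le_self hε0.le (one_le_pow₀ (by norm_num))) fun i _ hi => ih i (by
          push_cast at hj
          linarith)
      rwa [div_div, ← pow_succ] at this
  have hw' : (0 : ℝ) < w := by exact_mod_cast hw
  have hθ : 0 < Real.log 2 / (2 * w) := div_pos (Real.log_pos (by norm_num)) (by positivity)
  have hC : ∀ i : ℤ, i ≤ 0 →
      |b' i - b i| ≤ 2 * ε0 * Real.exp (2 * (Real.log 2 / (2 * w)) * i) := by
    intro i hi
    obtain ⟨l, rfl⟩ : ∃ l : ℕ, i = -l := ⟨(-i).toNat, by omega⟩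
    have h1 : l / w * w ≤ l := Nat.div_mul_le_self l w
    have h2 : l < (l / w + 1) * w := by
      rw [mul_comm]
      exact Nat.lt_mul_div_succ l hw
    refine (hk (l / w) (-l) (neg_le_neg (by exact_mod_cast h1))).trans ?_
    have h3 : (l : ℝ) ≤ ((l / w : ℕ) + 1) * w := by exact_mod_cast h2.le
    have h4 : Real.exp (-(((l / w : ℕ) + 1 : ℕ) * Real.log 2)) ≤
        Real.exp (2 * (Real.log 2 / (2 * w)) * ((-l : ℤ) : ℝ)) := by
      rw [Real.exp_le_exp]
      have h5 : 2 * (Real.log 2 / (2 * w)) * ((-l : ℤ) : ℝ) = -(l / w * Real.log 2) := by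
        push_cast
        field_simp
      rw [h5, neg_le_neg_iff]
      refine mul_le_mul_of_nonneg_right ?_ (Real.log_pos (by norm_num)).le
      rw [div_le_iff₀ hw', Nat.cast_add, Nat.cast_one]
      exact h3
    rw [Real.exp_neg, Real.exp_nat_mul, Real.exp_log (by norm_num)] at h4
    calc ε0 / 2 ^ (l / w) = 2 * ε0 * (2 ^ (l / w + 1))⁻¹ := by
          rw [pow_succ]
          field_simp
      _ ≤ _ := by gcongr
  funext j
  exact le_antisymm (eq_of_decay hS hL hpos h h' hθ hC j)
    (eq_of_decay hS hL hpos h' h hθ (fun i hi => by rw [abs_sub_comm]; exact hC i hi) j)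

end Uniq

section Per

variable {S : Set ℝ} {L : ℝ}

/-- closeness on a long window propagates to the next index -/
theorem exists_window (hL : S ⊆ Ioo (-L) L) {ε0 : ℝ} (hε0 : 0 < ε0)
    (hU : ∀ b b' : ℤ → ℝ, Good (cdfS S) (volume.real S) L b →
      Good (cdfS S) (volume.real S) L b' → (∀ i, i ≤ 0 → |b' i - b i| ≤ ε0) → b' = b) :
    ∃ N : ℕ, ∀ b b' : ℤ → ℝ, Good (cdfS S) (volume.real S) L b →
      Good (cdfS S) (volume.real S) L b' → (∀ i : ℤ, -N ≤ i → i ≤ 0 → |b' i - b i| ≤ ε0) →
        |b' 1 - b 1| ≤ ε0 := by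
  by_contra hno
  push Not at hno
  choose u v hu hv hc hf using hno
  have hK : IsCompact (Set.pi univ fun _ : ℤ => Icc (-L) L) :=
    isCompact_univ_pi fun _ => isCompact_Icc
  obtain ⟨⟨b, b'⟩, -, φ, hφ, hl⟩ := (hK.prod hK).tendsto_subseq (x := fun n => (u n, v n))
    fun n => ⟨fun i _ => abs_le.1 ((hu n).bd i), fun i _ => abs_le.1 ((hv n).bd i)⟩
  have l1 : Tendsto (fun n => u (φ n)) atTop (𝓝 b) := (continuous_fst.tendsto _).comp hl
  have l2 : Tendsto (fun n => v (φ n)) atTop (𝓝 b') := (continuous_snd.tendsto _).comp hl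
  have l3 : ∀ i, Tendsto (fun n => |v (φ n) i - u (φ n) i|) atTop (𝓝 |b' i - b i|) :=
    fun i => ((tendsto_pi_nhds.1 l2 i).sub (tendsto_pi_nhds.1 l1 i)).abs
  have heq := hU b b' (Good.lim (cdf_cont hL) (fun n => hu (φ n)) l1)
    (Good.lim (cdf_cont hL) (fun n => hv (φ n)) l2) fun i hi => by
      refine le_of_tendsto (l3 i) ?_
      filter_upwards [eventually_ge_atTop (-i).toNat] with n hn
      have := hφ.id_le n
      simp only [id] at this
      exact hc (φ n) i (by omega) hi
  have h1 := ge_of_tendsto' (l3 1) fun n => (hf (φ n)).le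
  rw [heq, sub_self, abs_zero] at h1
  linarith

/-- every solution is periodic -/
theorem Good.periodic (hS : MeasurableSet S) (hL : S ⊆ Ioo (-L) L) (hpos : 0 < volume.real S)
    {b : ℤ → ℝ} (h : Good (cdfS S) (volume.real S) L b) :
    ∃ T : ℤ, 0 < T ∧ ∀ i, b (i + T) = b i := by
  obtain ⟨ε0, hε0, hU⟩ := eq_of_close hS hL hpos
  obtain ⟨N, hN⟩ := exists_window hL hε0 hU
  have prop : ∀ r r' k : ℤ, (∀ i : ℤ, k - N ≤ i → i ≤ k → |b (i + r') - b (i + r)| ≤ ε0) →
      ∀ i, k - N ≤ i → |b (i + r') - b (i + r)| ≤ ε0 := by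
    intro r r' k hc
    have key : ∀ l : ℕ, ∀ i : ℤ, k - N ≤ i → i ≤ k + l → |b (i + r') - b (i + r)| ≤ ε0 := by
      intro l
      induction l with
      | zero => simpa using hc
      | succ l ih =>
        intro i h1 h2
        rcases le_or_gt i (k + l) with h3 | h3
        · exact ih i h1 h3
        · have := hN _ _ (h.shift (k + l + r)) (h.shift (k + l + r')) fun j j1 j2 => by
            have := ih (j + (k + l)) (by omega) (by omega)
            simpa only [add_assoc] using this
          have h4 : i = 1 + (k + l) := by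
            push_cast at h2
            omega
          simpa only [h4, add_assoc] using this
    intro i hi
    exact key (i - k).toNat i hi (by omega)
  classical
  obtain ⟨M, hM⟩ := exists_nat_ge (L / ε0)
  set t : Finset (Fin (N + 1) → ℤ) := Fintype.piFinset fun _ => Finset.Icc (-M : ℤ) M with ht
  have pig : ∀ n : ℕ, ∃ p : Fin (t.card + 1) × Fin (t.card + 1), p.1 < p.2 ∧
      ∀ i : ℤ, -n - N ≤ i → |b (i + (p.2 : ℕ)) - b (i + (p.1 : ℕ))| ≤ ε0 := by
    intro n
    obtain ⟨r, -, r', -, hne, he⟩ := Finset.exists_ne_map_eq_of_card_lt_of_maps_to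
      (s := (Finset.univ : Finset (Fin (t.card + 1)))) (t := t) (by simp)
      (f := fun r j => ⌊b (-n - (j : ℕ) + (r : ℕ)) / ε0⌋) fun r _ => by
        simp only [ht, Fintype.coe_piFinset, Set.mem_pi, mem_univ, Finset.coe_Icc, mem_Icc,
          forall_const]
        intro j
        have h1 := abs_le.1 (h.bd (-n - (j : ℕ) + (r : ℕ)))
        constructor
        · rw [Int.le_floor]
          push_cast
          have : -L / ε0 ≤ b (-n - (j : ℕ) + (r : ℕ)) / ε0 := by gcongr; exact h1.1
          rw [neg_div] at this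
          linarith
        · have : b (-n - (j : ℕ) + (r : ℕ)) / ε0 ≤ L / ε0 := by gcongr; exact h1.2
          have h2 := Int.floor_le (b (-n - (j : ℕ) + (r : ℕ)) / ε0)
          exact_mod_cast h2.trans (this.trans hM)
    have hw : ∀ i : ℤ, -n - N ≤ i → i ≤ -n → |b (i + (r' : ℕ)) - b (i + (r : ℕ))| ≤ ε0 := by
      intro i h1 h2
      have h3 := congrFun he ⟨(-n - i).toNat, by omega⟩
      have h4 : (-n - (((-n - i).toNat : ℕ) : ℤ) : ℤ) = i := by omega
      simp only [h4] at h3
      have h5 := Int.abs_sub_lt_one_of_floor_eq_floor h3.symm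
      rw [← sub_div, abs_div, abs_of_pos hε0, div_lt_one hε0] at h5
      exact h5.le
    rcases lt_or_gt_of_ne hne with hlt | hlt
    · exact ⟨(r, r'), hlt, prop _ _ _ hw⟩
    · exact ⟨(r', r), hlt, prop _ _ _ fun i h1 h2 => by rw [abs_sub_comm]; exact hw i h1 h2⟩
  choose f hf hf' using pig
  obtain ⟨p, hp⟩ := Finite.exists_infinite_fiber f
  have hinf : (f ⁻¹' {p}).Infinite := infinite_coe_iff.1 hp
  have heq := hU _ _ (h.shift (p.1 : ℕ)) (h.shift (p.2 : ℕ)) fun i _ => by
    obtain ⟨n, hn, hn'⟩ := hinf.exists_gt (-i).toNat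
    have h1 : f n = p := hn
    have := hf' n i (by omega)
    rwa [h1] at this
  obtain ⟨n, hn⟩ := hinf.nonempty
  have h1 : f n = p := hn
  have h2 : (p.1 : ℕ) < p.2 := h1 ▸ hf n
  refine ⟨(p.2 : ℕ) - (p.1 : ℕ), by omega, fun i => ?_⟩
  have h3 := congrFun heq (i - (p.1 : ℕ))
  simp only [sub_add_cancel] at h3
  rw [← h3]
  congr 1
  ring

end Per

section Tile

variable {S A : Set ℝ} {L : ℝ}

theorem vol_shift (S : Set ℝ) (a x y : ℝ) :
    volume ({z | z - a ∈ S} ∩ Ioc x y) = volume (S ∩ Ioc (x - a) (y - a)) := by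
  rw [← measure_preimage_add_right volume (-a) (S ∩ Ioc (x - a) (y - a))]
  congr 1
  ext z
  simp [← sub_eq_add_neg]

theorem meas_shift (hS : MeasurableSet S) (a : ℝ) : MeasurableSet {z | z - a ∈ S} :=
  measurable_sub_const a hS

theorem sum_shift (hS : MeasurableSet S) (hL : S ⊆ Ioo (-L) L)
    (hd : ∀ a ∈ A, ∀ b ∈ A, a ≠ b → volume ({x | x - a ∈ S} ∩ {x | x - b ∈ S}) = 0)
    {T : Finset ℝ} (hT : ∀ a ∈ T, a ∈ A) {x y : ℝ} (hxy : x ≤ y) :
    ∑ a ∈ T, (cdfS S (y - a) - cdfS S (x - a)) =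
      volume.real ((⋃ a ∈ T, {z | z - a ∈ S}) ∩ Ioc x y) := by
  rw [iUnion₂_inter, measureReal_biUnion_finset₀ ?_ ?_ ?_]
  · refine Finset.sum_congr rfl fun a _ => ?_
    rw [cdf_sub hL (by linarith), Measure.real, Measure.real, vol_shift]
  · intro a ha b hb hab
    exact measure_mono_null (inter_subset_inter inter_subset_left inter_subset_left)
      (hd a (hT a ha) b (hT b hb) hab)
  · exact fun a _ => ((meas_shift hS a).inter measurableSet_Ioc).nullMeasurableSet
  · intro a _
    exact ((measure_mono inter_subset_right).trans_lt (by simp)).ne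

theorem finite_inter (hS : MeasurableSet S) (hL : S ⊆ Ioo (-L) L) (hpos : 0 < volume.real S)
    (hd : ∀ a ∈ A, ∀ b ∈ A, a ≠ b → volume ({x | x - a ∈ S} ∩ {x | x - b ∈ S}) = 0)
    (x y : ℝ) : (A ∩ Icc x y).Finite := by
  by_contra hinf
  obtain ⟨k, hk⟩ := exists_nat_gt (volume.real (Ioc (x - L) (y + L)) / volume.real S)
  obtain ⟨T, hT, hc⟩ := Set.Infinite.exists_subset_card_eq hinf (k + 1)
  obtain ⟨a0, ha0⟩ : T.Nonempty := Finset.card_pos.1 (by omega)
  have hL0 : 0 < L := by
    by_contra h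
    have : S = ∅ := subset_eq_empty hL (Ioo_eq_empty (by linarith))
    simp [this] at hpos
  have h0 := (hT ha0).2
  have h1 := sum_shift hS hL hd (T := T) (fun a ha => (hT ha).1) (x := x - L) (y := y + L)
    (by linarith [h0.1, h0.2])
  have h2 : ∀ a ∈ T, cdfS S (y + L - a) - cdfS S (x - L - a) = volume.real S := by
    intro a ha
    have := (hT ha).2
    rw [cdf_right hL (by linarith [this.2]), cdf_left hL (by linarith [this.1]), sub_zero]
  rw [Finset.sum_congr rfl h2, Finset.sum_const, hc, nsmul_eq_mul] at h1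
  have h3 : volume.real ((⋃ a ∈ T, {z | z - a ∈ S}) ∩ Ioc (x - L) (y + L)) ≤
      volume.real (Ioc (x - L) (y + L)) := measureReal_mono inter_subset_right (by simp)
  rw [div_lt_iff₀ hpos] at hk
  push_cast at h1
  linarith

theorem exists_gt_lt (hL : S ⊆ Ioo (-L) L) (hc : volume (⋃ a ∈ A, {x | x - a ∈ S})ᶜ = 0)
    (x : ℝ) : (∃ a ∈ A, x < a) ∧ ∃ a ∈ A, a < x := by
  constructor
  · by_contra h
    push Not at h
    have : Ici (x + L) ⊆ (⋃ a ∈ A, {x | x - a ∈ S})ᶜ := by
      intro z hz
      simp only [mem_compl_iff, mem_iUnion, mem_ofPred_eq, not_exists]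
      intro a ha hs
      have := (hL hs).2
      have := h a ha
      have : x + L ≤ z := hz
      linarith
    simpa using measure_mono_null this hc
  · by_contra h
    push Not at h
    have : Iic (x - L) ⊆ (⋃ a ∈ A, {x | x - a ∈ S})ᶜ := by
      intro z hz
      simp only [mem_compl_iff, mem_iUnion, mem_ofPred_eq, not_exists]
      intro a ha hs
      have := (hL hs).1
      have := h a ha
      have : z ≤ x - L := hz
      linarith
    simpa using measure_mono_null this hc

theorem exists_enum (hf : ∀ x y, (A ∩ Icc x y).Finite)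
    (hu : ∀ x, (∃ a ∈ A, x < a) ∧ ∃ a ∈ A, a < x) :
    ∃ a : ℤ → ℝ, StrictMono a ∧ range a = A := by
  classical
  let i1 : LocallyFiniteOrder A := LocallyFiniteOrder.ofFiniteIcc fun x y =>
    ((hf x y).preimage Subtype.val_injective.injOn).subset fun z hz => ⟨z.2, hz⟩
  let i2 := LinearLocallyFiniteOrder.succOrder A
  let i3 := LinearLocallyFiniteOrder.predOrder A
  have : NoMaxOrder A := ⟨fun x => by
    obtain ⟨a, ha, h⟩ := (hu x).1
    exact ⟨⟨a, ha⟩, h⟩⟩
  have : NoMinOrder A := ⟨fun x => by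
    obtain ⟨a, ha, h⟩ := (hu x).2
    exact ⟨⟨a, ha⟩, h⟩⟩
  have : Nonempty A := by
    obtain ⟨a, ha, -⟩ := (hu 0).1
    exact ⟨⟨a, ha⟩⟩
  let e := (orderIsoIntOfLinearSuccPredArch (ι := A)).symm
  refine ⟨fun i => e i, fun i j h => e.strictMono h, ?_⟩
  ext z
  constructor
  · rintro ⟨i, rfl⟩
    exact (e i).2
  · intro hz
    exact ⟨e.symm ⟨z, hz⟩, by simp⟩

/-- every tiling of the line by translates of a bounded measurable set is periodic -/
theorem real_periodic (hS : MeasurableSet S) (hL : S ⊆ Ioo (-L) L) (hpos : 0 < volume.real S)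
    (hc : volume (⋃ a ∈ A, {x | x - a ∈ S})ᶜ = 0)
    (hd : ∀ a ∈ A, ∀ b ∈ A, a ≠ b → volume ({x | x - a ∈ S} ∩ {x | x - b ∈ S}) = 0) :
    ∃ k : ℕ, 0 < k ∧ ∀ z, k * volume.real S + z ∈ A ↔ z ∈ A := by
  have hu := exists_gt_lt hL hc
  obtain ⟨a, ha, rfl⟩ := exists_enum (finite_inter hS hL hpos hd) hu
  set m := volume.real S with hm
  set F := cdfS S with hF
  have hL0 : 0 < L := by
    by_contra h
    have : S = ∅ := subset_eq_empty hL (Ioo_eq_empty (by linarith))
    simp [hm, this] at hpos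
  have exp : ∀ x, ∃ p, a p + L ≤ x := fun x => by
    obtain ⟨_, ⟨p, rfl⟩, h⟩ := (hu (x - L)).2
    exact ⟨p, by linarith⟩
  have exq : ∀ x, ∃ q, x + L ≤ a (q + 1) := fun x => by
    obtain ⟨_, ⟨q, rfl⟩, h⟩ := (hu (x + L)).1
    exact ⟨q - 1, by simpa using h.le⟩
  have hpq : ∀ {x p q}, a p + L ≤ x → x + L ≤ a (q + 1) → p ≤ q := fun h1 h2 =>
    Int.lt_add_one_iff.1 (ha.lt_iff_lt.1 (by linarith))
  have step : ∀ (x y : ℝ) (p q : ℤ), x ≤ y → a p + L ≤ x → y + L ≤ a (q + 1) →
      ∑ i ∈ Finset.Ioc p q, F (y - a i) - ∑ i ∈ Finset.Ioc p q, F (x - a i) = y - x := by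
    intro x y p q hxy hp hq
    classical
    have h1 := sum_shift hS hL hd (T := (Finset.Ioc p q).image a)
      (fun z hz => by
        obtain ⟨i, -, rfl⟩ := Finset.mem_image.1 hz
        exact mem_range_self i) hxy
    rw [Finset.sum_image fun i _ j _ h => ha.injective h, Finset.sum_sub_distrib] at h1
    rw [h1]
    have h2 : volume ((⋃ z ∈ (Finset.Ioc p q).image a, {u | u - z ∈ S}) ∩ Ioc x y) =
        volume (Ioc x y) := by
      refine measure_congr ?_
      have : ∀ᵐ u, u ∈ ⋃ z ∈ range a, {x | x - z ∈ S} := hc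
      filter_upwards [this] with u hu
      refine propext ⟨fun h => h.2, fun h => ⟨?_, h⟩⟩
      simp only [mem_iUnion, mem_ofPred_eq] at hu ⊢
      obtain ⟨_, ⟨i, rfl⟩, hi⟩ := hu
      have h3 := hL hi
      have h4 : u ∈ Ioc x y := h
      refine ⟨a i, Finset.mem_image_of_mem _ (Finset.mem_Ioc.2 ⟨?_, ?_⟩), hi⟩
      · exact ha.lt_iff_lt.1 (by linarith [h3.2, h4.1])
      · exact Int.lt_add_one_iff.1 (ha.lt_iff_lt.1 (by linarith [h3.1, h4.2]))
    rw [Measure.real, h2]
    simp [hxy]
  have ext : ∀ (x : ℝ) (p q P Q : ℤ), a p + L ≤ x → x + L ≤ a (q + 1) → P ≤ p → q ≤ Q →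
      ∑ i ∈ Finset.Ioc P Q, F (x - a i) + P * m = ∑ i ∈ Finset.Ioc p q, F (x - a i) + p * m := by
    intro x p q P Q hp hq hP hQ
    have h0 := hpq hp hq
    have dj : ∀ u v w : ℤ, Disjoint (Finset.Ioc u v) (Finset.Ioc v w) := fun u v w =>
      Finset.disjoint_left.2 fun i h1 h2 => by
        rw [Finset.mem_Ioc] at h1 h2
        omega
    rw [← Finset.Ioc_union_Ioc_eq_Ioc hP (h0.trans hQ), Finset.sum_union (dj _ _ _),
      ← Finset.Ioc_union_Ioc_eq_Ioc h0 hQ, Finset.sum_union (dj _ _ _)]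
    have h1 : ∀ i ∈ Finset.Ioc P p, F (x - a i) = m := fun i hi =>
      cdf_right hL (by linarith [ha.monotone (Finset.mem_Ioc.1 hi).2])
    have h2 : ∀ i ∈ Finset.Ioc q Q, F (x - a i) = 0 := fun i hi =>
      cdf_left hL (by linarith [ha.monotone (Int.add_one_le_iff.2 (Finset.mem_Ioc.1 hi).1)])
    rw [Finset.sum_congr rfl h1, Finset.sum_eq_zero h2, Finset.sum_const, Int.card_Ioc,
      nsmul_eq_mul]
    have h3 : (((p - P).toNat : ℤ) : ℝ) = ((p - P : ℤ) : ℝ) := by
      rw [Int.toNat_of_nonneg (by omega)]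
    push_cast at h3
    rw [h3]
    ring
  obtain ⟨p0, hp0⟩ := exp 0
  obtain ⟨q0, hq0⟩ := exq 0
  set κ : ℝ := -(∑ i ∈ Finset.Ioc p0 q0, F (0 - a i) + p0 * m) with hκ
  have key : ∀ (x : ℝ) (p q : ℤ), a p + L ≤ x → x + L ≤ a (q + 1) →
      ∑ i ∈ Finset.Ioc p q, F (x - a i) = x - p * m - κ := by
    intro x p q hp hq
    have e1 := ext x p q (min p p0) (max q q0) hp hq (min_le_left _ _) (le_max_left _ _)
    have e2 := ext 0 p0 q0 (min p p0) (max q q0) hp0 hq0 (min_le_right _ _) (le_max_right _ _)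
    have m1 := ha.monotone (min_le_left p p0)
    have m2 := ha.monotone (min_le_right p p0)
    have m3 := ha.monotone (add_le_add_left (le_max_left q q0) 1)
    have m4 := ha.monotone (add_le_add_left (le_max_right q q0) 1)
    rcases le_total x 0 with h | h
    · have := step x 0 (min p p0) (max q q0) h (by linarith) (by linarith)
      linarith
    · have := step 0 x (min p p0) (max q q0) h (by linarith) (by linarith)
      linarith
  have hbd : ∀ j : ℤ, |a j - j * m - κ| ≤ L := by
    intro j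
    rw [abs_le]
    constructor
    · obtain ⟨q, hq⟩ := exq (a j + L)
      have h1 := key (a j + L) j q le_rfl hq
      have h2 : 0 ≤ ∑ i ∈ Finset.Ioc j q, F (a j + L - a i) :=
        Finset.sum_nonneg fun i _ => cdf_nonneg _
      linarith
    · obtain ⟨p, hp⟩ := exp (a j - L)
      have hq : a j - L + L ≤ a (j - 1 + 1) := by simp
      have h1 := key (a j - L) p (j - 1) hp hq
      have h2 : ∑ i ∈ Finset.Ioc p (j - 1), F (a j - L - a i) ≤ _ :=
        Finset.sum_le_card_nsmul _ _ m fun i _ => cdf_le_total hL _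
      rw [Int.card_Ioc, nsmul_eq_mul] at h2
      have h3 : (((j - 1 - p).toNat : ℤ) : ℝ) = ((j - 1 - p : ℤ) : ℝ) := by
        rw [Int.toNat_of_nonneg (by have := hpq hp hq; omega)]
      push_cast at h3
      rw [h3] at h2
      linarith
  have hG : Good F m L fun j => a j - j * m - κ := by
    refine ⟨hbd, fun i j hij => ?_, fun x p q hp hq => ?_⟩
    · have := ha.monotone hij
      simp only
      linarith
    · have h1 := abs_le.1 (hbd p)
      have h2 := abs_le.1 (hbd (q + 1))
      push_cast at h2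
      have := key (x + κ) p q (by linarith) (by linarith)
      have h3 : ∀ i : ℤ, x - (i * m + (a i - i * m - κ)) = x + κ - a i := fun i => by ring
      simp only [h3, this]
      ring
  obtain ⟨T, hT, hper⟩ := hG.periodic hS hL hpos
  have hT' : ((T.toNat : ℕ) : ℝ) = T := by exact_mod_cast Int.toNat_of_nonneg hT.le
  have h1 : ∀ i, a (i + T) = T * m + a i := fun i => by
    have := hper i
    push_cast at this
    linarith
  refine ⟨T.toNat, by omega, fun z => ⟨?_, ?_⟩⟩
  · rintro ⟨i, hi⟩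
    refine ⟨i - T, ?_⟩
    have := h1 (i - T)
    rw [sub_add_cancel, hi, hT'] at this
    linarith
  · rintro ⟨i, rfl⟩
    exact ⟨i + T, by rw [h1, hT']⟩

end Tile

end Vale.Agent.N043.Line

namespace Vale.Agent.N043

open MeasureTheory Set Vale.Agent.P043.Eu

/-- Every tiling of the line by translates of a bounded measurable set of positive measure is
invariant under a positive integer multiple of the measure of the tile. -/
theorem line_period (Om A : Set (Fin 1 → ℝ)) (hb : Bornology.IsBounded Om) (hm : MeasurableSet Om)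
    (hpos : 0 < volume Om) (hT : TilesAE Om A) :
    ∃ k : ℕ, 0 < k ∧ ∀ a, (fun _ => k * volume.real Om) + a ∈ A ↔ a ∈ A := by
  set e := (MeasurableEquiv.funUnique (Fin 1) ℝ).symm with he
  have hp : MeasurePreserving e volume volume := (volume_preserving_funUnique (Fin 1) ℝ).symm _
  have hex : ∀ x, e x = fun _ => x := fun x => by
    funext i
    simp [he, Subsingleton.elim i 0]
  have hsub : ∀ x a, e (x - a) = e x - e a := fun x a => by
    simp only [hex]
    rfl
  obtain ⟨R, hR⟩ := hb.subset_ball 0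
  have hL : e ⁻¹' Om ⊆ Ioo (-R) R := fun x hx => by
    have h1 := hR hx
    rw [mem_ball_zero_iff, hex, pi_norm_const, Real.norm_eq_abs] at h1
    exact abs_lt.1 h1
  have hv : volume.real (e ⁻¹' Om) = volume.real Om := by
    simp only [Measure.real, hp.measure_preimage_equiv]
  have hpos' : 0 < volume.real (e ⁻¹' Om) := by
    rw [hv]
    exact ENNReal.toReal_pos hpos.ne' hb.measure_lt_top.ne
  obtain ⟨k, hk, h⟩ := Line.real_periodic (A := e ⁻¹' A) (e.measurable hm) hL hpos'
    (by
      refine Eq.trans ?_ ((hp.measure_preimage_equiv _).trans hT.1)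
      congr 1
      ext x
      simp only [mem_compl_iff, mem_iUnion, mem_preimage, mem_ofPred_eq, hsub]
      refine not_congr ⟨fun ⟨a, ha, h⟩ => ⟨e a, ha, h⟩, fun ⟨a, ha, h⟩ => ⟨e.symm a, ?_, ?_⟩⟩
      · simpa using ha
      · simpa using h)
    (fun a ha b hb hab => by
      refine Eq.trans ?_ ((hp.measure_preimage_equiv _).trans
        (hT.2 (e a) ha (e b) hb (e.injective.ne hab)))
      exact congrArg volume (Set.ext fun x => by
        simp only [mem_inter_iff, mem_preimage, mem_ofPred_eq, hsub]))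
  refine ⟨k, hk, fun a => ?_⟩
  obtain ⟨z, rfl⟩ := e.surjective a
  have h1 := h z
  simp only [mem_preimage, hv, hex] at h1 ⊢
  exact h1

/-- Every tiling of the line by translates of a bounded measurable set of positive measure is
periodic. -/
theorem line_periodic (Om A : Set (Fin 1 → ℝ)) (hb : Bornology.IsBounded Om)
    (hm : MeasurableSet Om) (hpos : 0 < volume Om) (hT : TilesAE Om A) : LatticePeriodic A := by
  obtain ⟨k, hk, h⟩ := line_period Om A hb hm hpos hT
  have h1 : (k : ℝ) * volume.real Om ≠ 0 :=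
    mul_ne_zero (by exact_mod_cast hk.ne') (ENNReal.toReal_pos hpos.ne' hb.measure_lt_top.ne).ne'
  refine ⟨(Pi.basisFun ℝ (Fin 1)).unitsSMul fun _ => Units.mk0 _ h1, fun i a => ?_⟩
  rw [← h a]
  have : ((Pi.basisFun ℝ (Fin 1)).unitsSMul fun _ => Units.mk0 _ h1) i =
      fun _ => k * volume.real Om := by
    funext j
    simp [Module.Basis.unitsSMul_apply, Subsingleton.elim j i, Units.smul_def]
  rw [this]

end Vale.Agent.N043
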