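import Vale.Agent.N043.Boxes
import Vale.Agent.N043.Line

/-!
# P043: the two equivalences
-/

namespace Vale.Agent.N043

open MeasureTheory Set

theorem discrete_iff (d : ℕ) :
    (∀ F : Finset (Fin d → ℤ), F.Nonempty →
      (∃ A : Set (Fin d → ℤ), AddSubgroup.IsComplement A (F : Set (Fin d → ℤ))) →
      ∃ A : Set (Fin d → ℤ), AddSubgroup.IsComplement A (F : Set (Fin d → ℤ)) ∧ PeriodicZ A) ↔
    d ≤ 2 := by
  refine ⟨fun h => ?_, fun hd F _ ⟨A, hA⟩ => z_low hd F hA⟩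
  by_contra hd
  obtain ⟨F, hF, ⟨A, hA⟩, hno⟩ := Vale.Agent.P043.Z.ptc_fails3 d (by omega)
  obtain ⟨B, hB, hper⟩ := h F hF ⟨A, (isTiling_iff A F).1 hA⟩
  exact hno B ((isTiling_iff B F).2 hB) (isPeriodic_of_periodicZ hper)

/-- In dimension at most one every tiling by a bounded measurable tile is periodic. -/
theorem r_low {d : ℕ} (hd : d ≤ 1) {Ω A : Set (Fin d → ℝ)} (hb : Bornology.IsBounded Ω)
    (hm : NullMeasurableSet Ω) (hp : 0 < volume Ω) (hA : Tiles Ω A) : PeriodicR A := by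
  rw [periodicR_iff]
  obtain rfl | rfl : d = 0 ∨ d = 1 := by omega
  · exact ⟨Pi.basisFun ℝ (Fin 0), fun i => i.elim0⟩
  · obtain ⟨S, hS, hSm, he⟩ := hm.exists_measurable_subset_ae_eq
    exact line_periodic S A (hb.subset hS) hSm (by rwa [measure_congr he])
      ((tiles_iff _ _).1 (hA.congr hm hp he.symm))

theorem euclid_iff (d : ℕ) :
    (∀ Ω : Set (Fin d → ℝ), Bornology.IsBounded Ω → NullMeasurableSet Ω → 0 < volume Ω →
      (∃ A, Tiles Ω A) → ∃ A, Tiles Ω A ∧ PeriodicR A) ↔ d ≤ 1 := by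
  refine ⟨fun h => ?_, fun hd Ω hb hm hp ⟨A, hA⟩ => ⟨A, hA, r_low hd hb hm hp hA⟩⟩
  by_contra hd
  obtain ⟨T, ⟨p, hp⟩, hT, hA, hno⟩ := boxes (d := d) (by omega)
  obtain ⟨B, hB, hper⟩ := h (⋃ p ∈ T, Icc p.1 p.2)
    ((Bornology.isBounded_biUnion_finset T).2 fun q _ => Metric.isBounded_Icc _ _)
    (T.measurableSet_biUnion fun q _ => measurableSet_Icc).nullMeasurableSet
    (lt_of_lt_of_le (by
        rw [Real.volume_Icc_pi]
        exact pos_iff_ne_zero.2 (Finset.prod_ne_zero_iff.2 fun i _ =>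
          (ENNReal.ofReal_pos.2 (sub_pos.2 (hT p hp i))).ne'))
      (measure_mono (subset_biUnion_of_mem (u := fun p => Icc p.1 p.2) hp))) hA
  exact hno B hB hper

end Vale.Agent.N043
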