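import Vale.Agent.N043.ZMean

/-!
# The dilation lemma and the structure of tilings

A tiling is recorded as a function `a : G → ℕ` with `∑ f ∈ F, a (x - v f) = 1` for all `x`.
-/

namespace Vale.Agent.N043

open Filter Topology Finset

section Dil

variable {G : Type*} [AddCommGroup G]

/-- Translation of functions with values in `ZMod p`. -/
def sh (p : ℕ) (g : G) : Module.End (ZMod p) (G → ZMod p) where
  toFun u := fun x => u (x - g)
  map_add' _ _ := rfl
  map_smul' _ _ := rfl

theorem sh_apply (p : ℕ) (g : G) (u : G → ZMod p) (x : G) : sh p g u x = u (x - g) := rfl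

theorem sh_mul (p : ℕ) (g g' : G) : sh p g * sh p g' = sh p (g + g') := by
  ext u x
  simp [sh_apply, sub_sub]

theorem sh_pow (p : ℕ) (g : G) (n : ℕ) : sh p g ^ n = sh p (n • g) := by
  induction n with
  | zero => ext u x; simp [sh_apply]
  | succ n ih => rw [pow_succ, ih, sh_mul, succ_nsmul]

theorem sh_commute (p : ℕ) (g g' : G) : Commute (sh p g) (sh p g') := by
  rw [Commute, SemiconjBy, sh_mul, sh_mul, add_comm]

theorem sum_sh_pow {ι : Type*} (p : ℕ) [hp : Fact p.Prime] (s : Finset ι) (v : ι → G) :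
    (∑ i ∈ s, sh p (v i)) ^ p = ∑ i ∈ s, sh p (p • v i) := by
  classical
  have : CharP (Module.End (ZMod p) (G → ZMod p)) p :=
    charP_of_injective_algebraMap (algebraMap (ZMod p) _).injective p
  induction s using Finset.induction_on with
  | empty => simp [hp.out.ne_zero]
  | insert i s hi ih =>
    rw [sum_insert hi, sum_insert hi, add_pow_char_of_commute, ih, sh_pow]
    exact Commute.sum_right _ _ _ fun j _ => sh_commute p _ _

theorem le_one_of_tiling {ι : Type*} {s : Finset ι} {v : ι → G} {a : G → ℕ} (hs : s.Nonempty)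
    (h : ∀ x, ∑ i ∈ s, a (x - v i) = 1) (y : G) : a y ≤ 1 := by
  obtain ⟨i, hi⟩ := hs
  have := single_le_sum (f := fun j => a (y + v i - v j)) (fun _ _ => Nat.zero_le _) hi
  rw [h] at this
  simpa using this

theorem dil_prime {ι : Type*} {s : Finset ι} {v : ι → G} {a : G → ℕ}
    (h : ∀ x, ∑ i ∈ s, a (x - v i) = 1) {p : ℕ} (hp : p.Prime) (hlt : s.card < p) (x : G) :
    ∑ i ∈ s, a (x - p • v i) = 1 := by
  have := Fact.mk hp
  have hs : s.Nonempty := by
    rcases s.eq_empty_or_nonempty with rfl | hs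
    · simpa using h 0
    · exact hs
  set S : Module.End (ZMod p) (G → ZMod p) := ∑ i ∈ s, sh p (v i) with hS
  have h1 : S (fun y => (a y : ZMod p)) = fun _ => 1 := by
    funext y
    have := congrArg (Nat.cast : ℕ → ZMod p) (h y)
    simpa [hS, LinearMap.sum_apply, sh_apply] using this
  have h2 : ∀ n : ℕ, (S ^ n) (fun _ => 1) = fun _ => (s.card : ZMod p) ^ n := by
    intro n
    induction n with
    | zero => simp
    | succ n ih =>
      rw [pow_succ', Module.End.mul_apply, ih]
      funext y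
      simp [hS, LinearMap.sum_apply, sh_apply, pow_succ']
  have hc : (s.card : ZMod p) ≠ 0 := by
    rw [Ne, ZMod.natCast_eq_zero_iff]
    exact Nat.not_dvd_of_pos_of_lt hs.card_pos hlt
  have h3 : (S ^ p) (fun y => (a y : ZMod p)) = fun _ => 1 := by
    obtain ⟨n, hn⟩ : ∃ n, p = n + 1 := ⟨p - 1, by have := hp.pos; omega⟩
    have e : S ^ p = S ^ (p - 1) * S := by rw [← pow_succ]; congr 1; omega
    rw [e, Module.End.mul_apply, h1, h2, ZMod.pow_card_sub_one_eq_one hc]
  rw [hS, sum_sh_pow] at h3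
  have h4 : ((∑ i ∈ s, a (x - p • v i) : ℕ) : ZMod p) = ((1 : ℕ) : ZMod p) := by
    simpa [LinearMap.sum_apply, sh_apply] using congrFun h3 x
  have h5 : ∑ i ∈ s, a (x - p • v i) ≤ s.card := by
    simpa using sum_le_card_nsmul s (fun i => a (x - p • v i)) 1
      fun i _ => le_one_of_tiling hs h _
  rw [ZMod.natCast_eq_natCast_iff', Nat.mod_eq_of_lt (by omega), Nat.mod_eq_of_lt hp.one_lt] at h4
  exact h4

theorem dil {ι : Type*} {s : Finset ι} {v : ι → G} {a : G → ℕ}
    (h : ∀ x, ∑ i ∈ s, a (x - v i) = 1) : ∀ r : ℕ, r ≠ 0 →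
      (∀ p : ℕ, p.Prime → p ∣ r → s.card < p) → ∀ x, ∑ i ∈ s, a (x - r • v i) = 1 := by
  intro r
  induction r using induction_on_primes with
  | zero => intro h0; exact absurd rfl h0
  | one => intro _ _; simpa using h
  | prime_mul p r hp ih =>
    intro h0 hr x
    have h1 := ih (by rintro rfl; simp at h0) fun q hq hqr => hr q hq (hqr.mul_left p)
    simpa [mul_smul] using dil_prime h1 hp (hr p hp (dvd_mul_right p r)) x

theorem dil_factorial {ι : Type*} {s : Finset ι} {v : ι → G} {a : G → ℕ}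
    (h : ∀ x, ∑ i ∈ s, a (x - v i) = 1) (n : ℕ) (x : G) :
    ∑ i ∈ s, a (x - (1 + n * s.card.factorial) • v i) = 1 := by
  refine dil h _ (by omega) (fun p hp hd => ?_) x
  by_contra hle
  have h1 : p ∣ n * s.card.factorial := ((hp.dvd_factorial).2 (not_lt.1 hle)).mul_left n
  exact hp.one_lt.ne' (Nat.dvd_one.1 ((Nat.dvd_add_left h1).1 hd))

/-- Structure theorem: `a = 1 - ∑ φ f` with `φ f ≥ 0` periodic along `f - f₀`. -/
theorem structure_thm [DecidableEq G] {F : Finset G} {a : G → ℕ}
    (h : ∀ x, ∑ f ∈ F, a (x - f) = 1) {f₀ : G} (hf₀ : f₀ ∈ F) :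
    ∃ q : ℤ, 0 < q ∧ ∃ φ : G → G → ℝ, (∀ f x, 0 ≤ φ f x) ∧
      (∀ f, Function.Periodic (φ f) (q • (f - f₀))) ∧
      ∀ x, (a x : ℝ) + ∑ f ∈ F.erase f₀, φ f x = 1 := by
  set q : ℕ := F.card.factorial with hq
  have ha : ∀ y, a y ≤ 1 := le_one_of_tiling (v := id) ⟨f₀, hf₀⟩ h
  have hb : ∀ y, ‖(a y : ℂ)‖ ≤ 1 := fun y => by
    rw [Complex.norm_natCast]; exact_mod_cast ha y
  have hex : ∀ f x : G, ∃ c, HasMean (fun n : ℤ => (a (x - (1 + n * q) • (f - f₀)) : ℂ)) c :=
    fun f x => exists_hasMean (B := 1) fun n => hb _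
  choose c hc using hex
  refine ⟨q, by exact_mod_cast Nat.factorial_pos _, fun f x => (c f x).re, fun f x => ?_,
    fun f x => ?_, fun x => ?_⟩
  · exact (hc f x).re_nonneg fun n => by simp
  · have h1 := (hc f (x + (q : ℤ) • (f - f₀))).shift fun n => hb _
    have h2 : HasMean (fun n : ℤ => (a (x - (1 + n * q) • (f - f₀)) : ℂ))
        (c f (x + (q : ℤ) • (f - f₀))) := by
      refine h1.congr (fun n => ?_) rfl
      congr 2
      module
    simp only [h2.unique (hc f x)]
  · have h1 := (hasMean_const (a x : ℂ)).add (hasMean_sum (F.erase f₀) fun f _ => hc f x)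
    have h2 : (a x : ℂ) + ∑ f ∈ F.erase f₀, c f x = 1 := by
      refine tendsto_nhds_unique h1 (Tendsto.congr (fun N => ?_) (hasMean_const 1))
      congr 1
      refine sum_congr rfl fun n _ => ?_
      have h3 := dil_factorial (v := id) h n (x + (1 + n * q) • f₀)
      rw [← add_sum_erase F _ hf₀] at h3
      have h4 := congrArg (Nat.cast : ℕ → ℂ) h3
      push_cast at h4
      rw [← h4]
      simp only [id]
      congr 1
      · rw [add_sub_cancel_right]
      · refine sum_congr rfl fun f _ => ?_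
        congr 2
        rw [← natCast_zsmul, ← natCast_zsmul]
        push_cast
        module
    have h5 := congrArg Complex.re h2
    simpa [Complex.re_sum] using h5

end Dil

end Vale.Agent.N043
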