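import Vale.Agent.N043.ZTwo
import Vale.Agent.N043.Defs
import Vale.Agent.P043.Defs
import Vale.Agent.P043.Eu.Defs

/-!
# The periodic tiling conjecture in `ℤ^d`, `d ≤ 2`, and bridges between the definitions
-/

namespace Vale.Agent.N043

open Finset Function MeasureTheory Pointwise

theorem isComplement_iff_sum {G : Type*} [AddCommGroup G] (A : Set G) [DecidablePred (· ∈ A)]
    (F : Finset G) : AddSubgroup.IsComplement A (F : Set G) ↔
      ∀ x, ∑ f ∈ F, (if x - f ∈ A then 1 else 0 : ℕ) = 1 := by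
  rw [AddSubgroup.isComplement_iff_existsUnique_add_neg_mem]
  refine forall_congr' fun x => ?_
  rw [← card_filter, card_eq_one]
  constructor
  · rintro ⟨⟨f, hf⟩, h1, h2⟩
    refine ⟨f, eq_singleton_iff_unique_mem.2
      ⟨mem_filter.2 ⟨hf, by simpa [sub_eq_add_neg] using h1⟩, fun g hg => ?_⟩⟩
    obtain ⟨hg1, hg2⟩ := mem_filter.1 hg
    exact congrArg Subtype.val (h2 ⟨g, hg1⟩ (by simpa [sub_eq_add_neg] using hg2))
  · rintro ⟨f, hf⟩
    obtain ⟨h1, h2⟩ := eq_singleton_iff_unique_mem.1 hf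
    obtain ⟨h3, h4⟩ := mem_filter.1 h1
    refine ⟨⟨f, h3⟩, by simpa [sub_eq_add_neg] using h4, fun g hg => Subtype.ext (h2 g ?_)⟩
    exact mem_filter.2 ⟨g.2, by simpa [sub_eq_add_neg] using hg⟩

theorem vadd_eq_of_iff {G : Type*} [AddCommGroup G] {A : Set G} {h : G}
    (H : ∀ a, a + h ∈ A ↔ a ∈ A) : h +ᵥ A = A := by
  ext x
  rw [Set.mem_vadd_set_iff_neg_vadd_mem, vadd_eq_add, ← H (-h + x)]
  simp

theorem iff_of_vadd_eq {G : Type*} [AddCommGroup G] {A : Set G} {h : G} (H : h +ᵥ A = A) (a : G) :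
    h + a ∈ A ↔ a ∈ A := by
  conv_lhs => rw [← H]
  exact Set.vadd_mem_vadd_set_iff

/-- Transfer from `ℤ × ℤ` to a retract. -/
theorem periodic_of_retract {G : Type*} [AddCommGroup G] (i : G →+ ℤ × ℤ) (π : ℤ × ℤ →+ G)
    (hπ : ∀ x, π (i x) = x) {F : Finset G} {A : Set G}
    (h : AddSubgroup.IsComplement A (F : Set G)) :
    ∃ B : Set G, AddSubgroup.IsComplement B (F : Set G) ∧
      ∃ M : ℕ, M ≠ 0 ∧ ∀ z a : G, a + M • z ∈ B ↔ a ∈ B := by
  classical
  have hi : Injective i := LeftInverse.injective hπ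
  rw [isComplement_iff_sum] at h
  obtain ⟨b, ⟨M, hM, hb⟩, ht⟩ := core (F := F.map ⟨i, hi⟩)
    (a := fun y => if π y ∈ A then 1 else 0) fun x => by
      rw [sum_map]
      refine Eq.trans (sum_congr rfl fun f _ => ?_) (h (π x))
      simp [hπ]
  have hF : (F.map ⟨i, hi⟩).Nonempty := by
    rcases (F.map ⟨i, hi⟩).eq_empty_or_nonempty with e | hs
    · simpa [e] using ht 0
    · exact hs
  have hb1 : ∀ y, b y ≤ 1 := le_one_of_tiling (v := id) hF ht
  refine ⟨{x | b (i x) = 1}, (isComplement_iff_sum _ _).2 fun x => ?_, M.toNat, by omega,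
    fun z a => ?_⟩
  · refine Eq.trans ?_ (ht (i x))
    rw [sum_map]
    refine sum_congr rfl fun f _ => ?_
    have := hb1 (i x - i f)
    simp only [Set.mem_ofPred_eq, map_sub, Embedding.coeFn_mk]
    split_ifs <;> omega
  · simp only [Set.mem_ofPred_eq, map_add, map_nsmul]
    rw [← natCast_zsmul, Int.toNat_of_nonneg hM.le, hb (i z)]

/-- The periodic tiling conjecture holds in `ℤ^d` for `d ≤ 2`. -/
theorem z_low {d : ℕ} (hd : d ≤ 2) (F : Finset (Fin d → ℤ)) {A : Set (Fin d → ℤ)}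
    (h : AddSubgroup.IsComplement A (F : Set (Fin d → ℤ))) :
    ∃ B : Set (Fin d → ℤ), AddSubgroup.IsComplement B (F : Set (Fin d → ℤ)) ∧ PeriodicZ B := by
  let i : (Fin d → ℤ) →+ ℤ × ℤ :=
    { toFun := fun v => (if h : 0 < d then v ⟨0, h⟩ else 0, if h : 1 < d then v ⟨1, h⟩ else 0)
      map_zero' := by simp
      map_add' := fun v w => by ext <;> simp only [Prod.mk_add_mk] <;> split_ifs <;> simp }
  let π : ℤ × ℤ →+ (Fin d → ℤ) :=
    { toFun := fun y k => if k.val = 0 then y.1 else y.2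
      map_zero' := by funext k; simp
      map_add' := fun v w => by funext k; simp only [Pi.add_apply]; split_ifs <;> simp }
  have hπ : ∀ x, π (i x) = x := by
    intro x
    funext k
    obtain ⟨k, hk⟩ := k
    change (if k = 0 then (if h : 0 < d then x ⟨0, h⟩ else 0)
      else (if h : 1 < d then x ⟨1, h⟩ else 0)) = x ⟨k, hk⟩
    split_ifs with h0 h1 h2
    · subst h0; rfl
    · omega
    · obtain rfl : k = 1 := by omega
      rfl
    · omega
  obtain ⟨B, hB, M, hM, hper⟩ := periodic_of_retract i π hπ h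
  refine ⟨B, hB, (nsmulAddMonoidHom M).range,
    AddSubgroup.finiteIndex_range_nsmulAddMonoidHom_of_fg _ hM, ?_⟩
  rintro _ ⟨z, rfl⟩
  exact vadd_eq_of_iff (hper z)

theorem isTiling_iff {G : Type} [AddCommGroup G] (A : Set G) (F : Finset G) :
    Vale.Agent.P043.IsTiling A F ↔ AddSubgroup.IsComplement A (F : Set G) := by
  rw [AddSubgroup.isComplement_iff_existsUnique]
  refine forall_congr' fun g => ⟨?_, ?_⟩
  · rintro ⟨p, ⟨h1, h2, h3⟩, hu⟩
    refine ⟨(⟨p.1, h1⟩, ⟨p.2, h2⟩), h3, fun q hq => ?_⟩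
    have := hu (q.1.1, q.2.1) ⟨q.1.2, q.2.2, hq⟩
    exact Prod.ext (Subtype.ext (congrArg Prod.fst this)) (Subtype.ext (congrArg Prod.snd this))
  · rintro ⟨q, hq, hu⟩
    refine ⟨(q.1.1, q.2.1), ⟨q.1.2, q.2.2, hq⟩, fun p hp => ?_⟩
    rw [← hu (⟨p.1, hp.1⟩, ⟨p.2, hp.2.1⟩) hp.2.2]

theorem isPeriodic_of_periodicZ {d : ℕ} {A : Set (Fin d → ℤ)} (h : PeriodicZ A) :
    Vale.Agent.P043.IsPeriodic A := by
  obtain ⟨L, hL, h⟩ := h
  refine ⟨L, hL, fun v hv => ?_⟩
  conv_rhs => rw [← h v hv]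
  exact Set.image_congr fun a _ => add_comm a v

theorem vadd_eq_setOf {d : ℕ} (a : Fin d → ℝ) (Ω : Set (Fin d → ℝ)) :
    (fun y => a + y) '' Ω = {x | x - a ∈ Ω} := by
  ext x
  change x ∈ a +ᵥ Ω ↔ _
  rw [Set.mem_vadd_set_iff_neg_vadd_mem, vadd_eq_add, neg_add_eq_sub]
  rfl

theorem tiles_iff {d : ℕ} (Ω A : Set (Fin d → ℝ)) :
    Tiles Ω A ↔ Vale.Agent.P043.Eu.TilesAE Ω A := by
  unfold Tiles Vale.Agent.P043.Eu.TilesAE
  simp only [vadd_eq_setOf]
  refine and_congr ?_ Iff.rfl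
  have e : (⋃ a ∈ A, {x | x - a ∈ Ω})ᶜ = {x | ¬ ∃ a ∈ A, x ∈ {x | x - a ∈ Ω}} := by
    ext x
    simp
  rw [ae_iff, e]

theorem periodicR_iff {d : ℕ} (A : Set (Fin d → ℝ)) :
    PeriodicR A ↔ Vale.Agent.P043.Eu.LatticePeriodic A := by
  constructor
  · rintro ⟨L, _, hL, h⟩
    refine ⟨(IsZLattice.basis L).ofZLatticeBasis ℝ L, fun i a => ?_⟩
    rw [Module.Basis.ofZLatticeBasis_apply]
    exact iff_of_vadd_eq (h _ (IsZLattice.basis L i).2) a
  · rintro ⟨b, hb⟩
    refine ⟨Submodule.span ℤ (Set.range b), inferInstance, inferInstance, fun v hv => ?_⟩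
    change v +ᵥ A = A
    induction hv using Submodule.span_induction with
    | mem x hx =>
      obtain ⟨i, rfl⟩ := hx
      exact vadd_eq_of_iff fun a => by rw [add_comm]; exact hb i a
    | zero => simp
    | add x y _ _ hx hy => rw [add_vadd, hy, hx]
    | smul c x _ hx =>
      exact (AddAction.stabilizer (Fin d → ℝ) A).zsmul_mem (x := x) hx c

/-- Changing the tile on a null set does not change the tilings. -/
theorem Tiles.congr {d : ℕ} {Ω Ω' A : Set (Fin d → ℝ)} (h : Tiles Ω A)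
    (hm : NullMeasurableSet Ω) (hp : 0 < volume Ω) (he : Ω =ᵐ[volume] Ω') : Tiles Ω' A := by
  have hv : ∀ a : Fin d → ℝ, (a +ᵥ Ω : Set (Fin d → ℝ)) =ᵐ[volume] (a +ᵥ Ω' : Set (Fin d → ℝ)) :=
    fun a => (vadd_set_ae_eq a).2 he
  have hc : A.Countable := by
    have h1 := Measure.countable_meas_pos_of_disjoint_iUnion₀ (μ := volume)
      (As := fun a : A => (a.1 +ᵥ Ω : Set (Fin d → ℝ))) (fun a => hm.vadd _)
      fun a b hab => h.2 _ a.2 _ b.2 fun e => hab (Subtype.ext e)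
    have h2 : {a : A | 0 < volume (a.1 +ᵥ Ω : Set (Fin d → ℝ))} = Set.univ :=
      Set.eq_univ_of_forall fun a => by simpa [measure_vadd] using hp
    rw [h2] at h1
    exact Set.countable_coe_iff.1 (Set.countable_univ_iff.1 h1)
  refine ⟨?_, fun a ha b hb hab => ?_⟩
  · filter_upwards [h.1, (ae_ball_iff hc).2 fun a _ => hv a] with x ⟨a, ha, hx⟩ hx'
    exact ⟨a, ha, (hx' a ha).mp hx⟩
  · exact (measure_congr ((hv a).inter (hv b))).symm.trans (h.2 _ ha _ hb hab)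

end Vale.Agent.N043
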