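import Mathlib

/-!
# Invariant means along an ultrafilter, van der Corput and Weyl

`HasMean u c`: the Cesaro averages of `u` converge to `c` along the hyperfilter.
-/

namespace Vale.Agent.N043

open Filter Topology Finset

/-- The Cesaro averages of `u` over `0, ..., N-1` converge to `c` along the hyperfilter. -/
def HasMean (u : ℤ → ℂ) (c : ℂ) : Prop :=
  Tendsto (fun N : ℕ => (∑ n ∈ range N, u n) / (N : ℂ)) (hyperfilter ℕ) (𝓝 c)

theorem hyper_le_atTop : (hyperfilter ℕ : Filter ℕ) ≤ atTop := by
  rw [← Nat.cofinite_eq_atTop]; exact hyperfilter_le_cofinite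

theorem HasMean.unique {u : ℤ → ℂ} {c d : ℂ} (h : HasMean u c) (h' : HasMean u d) : c = d :=
  tendsto_nhds_unique h h'

theorem norm_avg_le {u : ℤ → ℂ} {B : ℝ} (hB : ∀ n, ‖u n‖ ≤ B) (N : ℕ) :
    ‖(∑ n ∈ range N, u n) / (N : ℂ)‖ ≤ B := by
  have hB0 : 0 ≤ B := (norm_nonneg _).trans (hB 0)
  rcases Nat.eq_zero_or_pos N with rfl | hN
  · simpa using hB0
  · rw [norm_div, Complex.norm_natCast, div_le_iff₀ (by exact_mod_cast hN)]
    calc ‖∑ n ∈ range N, u n‖ ≤ ∑ n ∈ range N, ‖u n‖ := norm_sum_le _ _
      _ ≤ ∑ _n ∈ range N, B := sum_le_sum fun n _ => hB n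
      _ = B * N := by simp [mul_comm]

theorem exists_hasMean {u : ℤ → ℂ} {B : ℝ} (hB : ∀ n, ‖u n‖ ≤ B) : ∃ c, HasMean u c := by
  have hc : IsCompact (Metric.closedBall (0 : ℂ) B) := isCompact_closedBall 0 B
  obtain ⟨c, -, hc⟩ := hc.ultrafilter_le_nhds
    (Ultrafilter.map (fun N : ℕ => (∑ n ∈ range N, u n) / (N : ℂ)) (hyperfilter ℕ)) (by
      rw [Ultrafilter.coe_map, le_principal_iff, Filter.mem_map]
      exact Eventually.of_forall fun N => by
        simpa [Metric.mem_closedBall] using norm_avg_le hB N)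
  exact ⟨c, hc⟩

theorem hasMean_const (c : ℂ) : HasMean (fun _ => c) c := by
  refine (tendsto_const_nhds (x := c)).congr' ?_
  filter_upwards [hyper_le_atTop (eventually_gt_atTop 0)] with N hN
  have : (N : ℂ) ≠ 0 := by exact_mod_cast hN.ne'
  simp [this]

theorem HasMean.add {u v : ℤ → ℂ} {c d : ℂ} (h : HasMean u c) (h' : HasMean v d) :
    HasMean (fun n => u n + v n) (c + d) := by
  refine (Tendsto.add h h').congr fun N => ?_
  rw [sum_add_distrib, add_div]

theorem HasMean.const_mul {u : ℤ → ℂ} {c : ℂ} (h : HasMean u c) (a : ℂ) :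
    HasMean (fun n => a * u n) (a * c) := by
  refine (Tendsto.const_mul a h).congr fun N => ?_
  rw [← mul_sum, mul_div_assoc]

theorem HasMean.congr {u v : ℤ → ℂ} {c d : ℂ} (h : HasMean u c) (huv : ∀ n, u n = v n)
    (hcd : c = d) : HasMean v d := by
  have : u = v := funext huv
  rw [← this, ← hcd]; exact h

theorem hasMean_sum {ι : Type*} (s : Finset ι) {u : ι → ℤ → ℂ} {c : ι → ℂ}
    (h : ∀ i ∈ s, HasMean (u i) (c i)) : HasMean (fun n => ∑ i ∈ s, u i n) (∑ i ∈ s, c i) := by
  refine (tendsto_finsetSum s h).congr fun N => ?_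
  rw [← sum_div, sum_comm]

theorem HasMean.conj {u : ℤ → ℂ} {c : ℂ} (h : HasMean u c) :
    HasMean (fun n => (starRingEnd ℂ) (u n)) ((starRingEnd ℂ) c) := by
  refine ((Complex.continuous_conj.tendsto c).comp h).congr fun N => ?_
  simp

theorem HasMean.re_nonneg {u : ℤ → ℂ} {c : ℂ} (h : HasMean u c) (hu : ∀ n, 0 ≤ (u n).re) :
    0 ≤ c.re := by
  refine ge_of_tendsto' ((Complex.continuous_re.tendsto c).comp h) fun N => ?_
  simp only [Function.comp, Complex.div_natCast_re, Complex.re_sum]
  exact div_nonneg (sum_nonneg fun n _ => hu n) (Nat.cast_nonneg _)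

theorem HasMean.shift {u : ℤ → ℂ} {c : ℂ} {B : ℝ} (h : HasMean u c) (hB : ∀ n, ‖u n‖ ≤ B) :
    HasMean (fun n => u (n + 1)) c := by
  have h0 : Tendsto (fun N : ℕ => (u N - u 0) / (N : ℂ)) (hyperfilter ℕ) (𝓝 0) := by
    refine Tendsto.mono_left ?_ hyper_le_atTop
    refine squeeze_zero_norm (a := fun N : ℕ => (2 * B) / (N : ℝ)) (fun N => ?_)
      (tendsto_const_div_atTop_nhds_zero_nat _)
    rw [norm_div, Complex.norm_natCast]
    refine div_le_div_of_nonneg_right ?_ (Nat.cast_nonneg _)
    have := norm_sub_le (u N) (u 0)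
    linarith [hB N, hB 0]
  have := Tendsto.add h h0
  rw [add_zero] at this
  refine this.congr fun N => ?_
  rw [← add_div]
  congr 1
  have e1 := sum_range_succ (fun n : ℕ => u n) N
  have e2 := sum_range_succ' (fun n : ℕ => u n) N
  push_cast at e1 e2
  linear_combination e2 - e1

theorem HasMean.shift_nat {u : ℤ → ℂ} {c : ℂ} {B : ℝ} (h : HasMean u c) (hB : ∀ n, ‖u n‖ ≤ B)
    (k : ℕ) : HasMean (fun n => u (n + k)) c := by
  induction k with
  | zero => simpa using h
  | succ k ih =>
    refine (ih.shift fun n => hB _).congr (fun n => ?_) rfl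
    push_cast; congr 1; ring

/-- Van der Corput. -/
theorem vdc {u : ℤ → ℂ} (hu : ∀ n, ‖u n‖ = 1)
    (h : ∀ a b : ℕ, a ≠ b → HasMean (fun n => u (n + a) * (starRingEnd ℂ) (u (n + b))) 0) :
    HasMean u 0 := by
  obtain ⟨c, hc⟩ := exists_hasMean (u := u) (B := 1) fun n => (hu n).le
  have hsh : ∀ a : ℕ, HasMean (fun n => u (n + a)) c := hc.shift_nat fun n => (hu n).le
  have hab : ∀ a b : ℕ, HasMean (fun n => (u (n + a) - c) * (starRingEnd ℂ) (u (n + b) - c))
      ((if a = b then 1 else 0) - c * (starRingEnd ℂ) c) := by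
    intro a b
    have h1 : HasMean (fun n => u (n + a) * (starRingEnd ℂ) (u (n + b)))
        (if a = b then 1 else 0) := by
      split_ifs with e
      · subst e
        refine (hasMean_const 1).congr (fun n => ?_) rfl
        rw [Complex.mul_conj, Complex.normSq_eq_norm_sq, hu]; simp
      · exact h a b e
    refine (((h1.add ((hsh a).const_mul (-(starRingEnd ℂ) c))).add
      ((hsh b).conj.const_mul (-c))).add (hasMean_const (c * (starRingEnd ℂ) c))).congr
      (fun n => ?_) ?_
    · rw [map_sub]; ring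
    · ring
  have key : ∀ H : ℕ, (H : ℝ) * H * Complex.normSq c ≤ H := by
    intro H
    have h2 := hasMean_sum (range H) fun a _ => hasMean_sum (range H) fun b _ => hab a b
    have h3 := h2.re_nonneg fun n => by
      rw [← sum_mul_sum, ← map_sum, Complex.mul_conj]
      simpa using Complex.normSq_nonneg _
    have h4 : (∑ a ∈ range H, ∑ b ∈ range H,
        ((if a = b then 1 else 0) - c * (starRingEnd ℂ) c) : ℂ) =
        (((H : ℝ) - H * H * Complex.normSq c : ℝ) : ℂ) := by
      rw [Complex.mul_conj]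
      simp only [sum_sub_distrib, sum_const, card_range, nsmul_eq_mul]
      rw [sum_congr rfl fun a ha => (sum_ite_eq (range H) a fun _ => (1 : ℂ)).trans (if_pos ha)]
      simp [mul_assoc]
    rw [h4, Complex.ofReal_re] at h3
    linarith
  have hc0 : c = 0 := by
    by_contra hne
    have hp : 0 < Complex.normSq c := Complex.normSq_pos.2 hne
    obtain ⟨H, hH⟩ := exists_nat_gt (1 / Complex.normSq c)
    have hH0 : (0 : ℝ) < H := lt_trans (by positivity) hH
    rw [div_lt_iff₀ hp] at hH
    have := key H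
    nlinarith
  exact hc0 ▸ hc

/-- `e(x) = exp(2 pi i x)` on the circle `R / Z`. -/
noncomputable def ee (x : AddCircle (1 : ℝ)) : ℂ := (AddCircle.toCircle x : Circle)

theorem ee_add (x y : AddCircle (1 : ℝ)) : ee (x + y) = ee x * ee y := by
  simp [ee, AddCircle.toCircle_add]

theorem norm_ee (x : AddCircle (1 : ℝ)) : ‖ee x‖ = 1 := Circle.norm_coe _

theorem ee_sub (x y : AddCircle (1 : ℝ)) : ee (x - y) = ee x * (starRingEnd ℂ) (ee y) := by
  rw [sub_eq_add_neg, ee_add, ee, ee, ee, AddCircle.toCircle_neg, Circle.coe_inv_eq_conj]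

theorem ee_ne_one {x : AddCircle (1 : ℝ)} (hx : x ≠ 0) : ee x ≠ 1 := by
  intro h
  apply hx
  apply AddCircle.injective_toCircle (T := 1) one_ne_zero
  rw [AddCircle.toCircle_zero]
  exact Circle.ext h

theorem ee_im_nonneg {t : ℝ} (h0 : 0 ≤ t) (h1 : t ≤ 1 / 2) :
    0 ≤ (ee (t : AddCircle (1 : ℝ))).im := by
  rw [ee, AddCircle.toCircle_apply_mk, Circle.coe_exp, Complex.exp_ofReal_mul_I_im]
  apply Real.sin_nonneg_of_nonneg_of_le_pi
  · positivity
  · nlinarith [Real.pi_pos]

section Poly

variable {K : Type*} [AddCommGroup K]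

theorem lin_of_diff {R : ℤ → K} {α : K} (h : fwdDiff 1 R = fun _ => α) (n m : ℤ) :
    R (n + m) = R n + m • α := by
  have h1 : ∀ n, R (n + 1) = R n + α := fun n => by
    have := congrFun h n
    simp only [fwdDiff] at this
    rw [← this]; abel
  induction m using Int.induction_on with
  | zero => simp
  | succ m ih => rw [← add_assoc, h1, ih, add_smul, one_smul, add_assoc]
  | pred m ih =>
    have := h1 (n + (-(m : ℤ) - 1))
    rw [show n + (-(m : ℤ) - 1) + 1 = n + -(m : ℤ) by ring, ih] at this
    rw [sub_smul, one_smul, ← add_sub_assoc (R n), this]; abel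

theorem diff_shift_sub {P : ℤ → K} {α : K} {k : ℕ} (h : (fwdDiff 1)^[k + 1] P = fun _ => α)
    (a b : ℤ) : (fwdDiff 1)^[k] (fun n => P (n + a) - P (n + b)) = fun _ => (a - b) • α := by
  rw [Function.iterate_succ_apply'] at h
  have e : (fun n => P (n + a) - P (n + b)) =
      (fun n => P (n + a)) + (-1 : ℤ) • fun n => P (n + b) := by
    funext n; simp [sub_eq_add_neg]
  rw [e, fwdDiff_iter_add, fwdDiff_iter_const_smul]
  funext n
  simp only [Pi.add_apply, Pi.smul_apply, fwdDiff_iter_comp_add, lin_of_diff h]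
  rw [sub_smul]; simp [sub_eq_add_neg]; abel

theorem diff_restrict (M : ℤ) : ∀ (k : ℕ) (P : ℤ → K) (α : K),
    (fwdDiff 1)^[k] P = (fun _ => α) → ∀ r : ℤ,
      (fwdDiff 1)^[k] (fun t => P (r + M * t)) = fun _ => M ^ k • α := by
  intro k
  induction k with
  | zero => intro P α h r; funext t; simpa using congrFun h _
  | succ k ih =>
    intro P α h r
    have h1 := ih _ _ (diff_shift_sub h M 0) r
    rw [Function.iterate_succ_apply]
    have e : fwdDiff 1 (fun t => P (r + M * t)) =
        fun t => P (r + M * t + M) - P (r + M * t + 0) := by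
      funext t; simp only [fwdDiff]; congr 2 <;> ring
    rw [e, h1, sub_zero, pow_succ, mul_smul]

end Poly

/-- Weyl: irrational leading coefficient gives mean zero. -/
theorem weyl : ∀ (k : ℕ) (P : ℤ → AddCircle (1 : ℝ)) (α : AddCircle (1 : ℝ)),
    (fwdDiff 1)^[k + 1] P = (fun _ => α) → (∀ m : ℤ, m ≠ 0 → m • α ≠ 0) →
      HasMean (fun n => ee (P n)) 0 := by
  intro k
  induction k with
  | zero =>
    intro P α h hα
    obtain ⟨c, hc⟩ := exists_hasMean (u := fun n => ee (P n)) (B := 1) fun n => (norm_ee _).le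
    have h1 := hc.shift fun n => (norm_ee _).le
    have h2 : HasMean (fun n => ee (P (n + 1))) (ee α * c) := by
      refine (hc.const_mul (ee α)).congr (fun n => ?_) rfl
      rw [lin_of_diff h n 1, one_smul, ee_add, mul_comm]
    have h3 := h1.unique h2
    have h4 : ee α ≠ 1 := ee_ne_one (by simpa using hα 1 one_ne_zero)
    have : c = 0 := by
      by_contra hne
      apply h4
      have : (ee α - 1) * c = 0 := by linear_combination -h3
      exact sub_eq_zero.1 ((mul_eq_zero.1 this).resolve_right hne)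
    exact this ▸ hc
  | succ k ih =>
    intro P α h hα
    refine vdc (fun n => norm_ee _) fun a b hab => ?_
    have h1 := ih _ _ (diff_shift_sub h a b) fun m hm => by
      rw [smul_smul]
      exact hα _ (mul_ne_zero hm (sub_ne_zero.2 (by exact_mod_cast hab)))
    exact h1.congr (fun n => ee_sub _ _) rfl

/-- A polynomial sequence modulo one that stays in the upper half circle is periodic. -/
theorem periodic_of_half : ∀ (k : ℕ) (P : ℤ → AddCircle (1 : ℝ)),
    (fwdDiff 1)^[k] P = (fun _ => 0) → (∀ n, 0 ≤ (ee (P n)).im) →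
      ∃ N : ℤ, 0 < N ∧ Function.Periodic P N := by
  intro k
  induction k with
  | zero =>
    intro P h _
    refine ⟨1, one_pos, fun n => ?_⟩
    have h' : P = fun _ => 0 := h
    rw [h']
  | succ k ih =>
    intro P h hP
    have h0 := h
    rw [Function.iterate_succ_apply'] at h0
    have hc : (fwdDiff 1)^[k] P = fun _ => (fwdDiff 1)^[k] P 0 := by
      funext n
      simpa using lin_of_diff h0 0 n
    set α := (fwdDiff 1)^[k] P 0 with hα
    rcases k with _ | k
    · refine ⟨1, one_pos, fun n => ?_⟩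
      have h' : P = fun _ => α := hc
      rw [h']
    by_cases ht : ∀ m : ℤ, m ≠ 0 → m • α ≠ 0
    · exfalso
      have w1 := weyl k P α hc ht
      have w2 := weyl k ((2 : ℤ) • P) ((2 : ℤ) • α) (by rw [fwdDiff_iter_const_smul, hc]; rfl)
        fun m hm => by rw [smul_smul]; exact ht _ (mul_ne_zero hm two_ne_zero)
      have w3 := ((w1.const_mul (-Complex.I)).add (w2.const_mul (1 / 2))).add
        (hasMean_const (-1 / 2))
      have w4 := w3.re_nonneg fun n => by
        have e2 : ee (((2 : ℤ) • P) n) = ee (P n) * ee (P n) := by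
          rw [← ee_add, Pi.smul_apply, two_zsmul]
        have hn := norm_ee (P n)
        have hn2 : (ee (P n)).re ^ 2 + (ee (P n)).im ^ 2 = 1 := by
          have := Complex.normSq_eq_norm_sq (ee (P n))
          rw [hn, Complex.normSq_apply] at this
          nlinarith
        have hi := hP n
        have hi1 : (ee (P n)).im ≤ 1 := by nlinarith [sq_nonneg (ee (P n)).re]
        rw [e2]
        simp only [Complex.add_re, Complex.mul_re, Complex.mul_im, Complex.neg_re, Complex.I_re,
          Complex.neg_im, Complex.I_im]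
        norm_num
        nlinarith
      norm_num at w4
    · push Not at ht
      obtain ⟨m, hm, hmα⟩ := ht
      have hM : 0 < m * m := mul_self_pos.2 hm
      have hr : ∀ r : ℤ, ∃ N : ℤ, 0 < N ∧ Function.Periodic (fun t => P (r + m * m * t)) N := by
        intro r
        refine ih _ ?_ fun n => hP _
        rw [diff_restrict (m * m) (k + 1) P α hc r, pow_succ, mul_smul, mul_smul, hmα]
        simp
      choose N hN hNp using hr
      refine ⟨m * m * ∏ r ∈ Ico 0 (m * m), N r, mul_pos hM (prod_pos fun r _ => hN r),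
        fun n => ?_⟩
      have hmem : n % (m * m) ∈ Ico 0 (m * m) :=
        mem_Ico.2 ⟨Int.emod_nonneg _ hM.ne', Int.emod_lt_of_pos _ hM⟩
      obtain ⟨c, hc⟩ := dvd_prod_of_mem N hmem
      have := (hNp (n % (m * m))).int_mul c (n / (m * m))
      simp only [Int.cast_id] at this
      rw [hc]
      have e1 : n + m * m * (N (n % (m * m)) * c) =
          n % (m * m) + m * m * (n / (m * m) + c * N (n % (m * m))) := by
        have := Int.emod_add_mul_ediv n (m * m)
        linear_combination -this
      rw [e1, this, Int.emod_add_mul_ediv]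

end Vale.Agent.N043
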