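import Mathlib

/-!
# Periodic functions on `ℤ × ℤ` and periodisation of one-periodic tilings
-/

namespace Vale.Agent.N043

open Finset

/-- The determinant of two plane vectors. -/
def det (x y : ℤ × ℤ) : ℤ := x.1 * y.2 - x.2 * y.1

/-- The scalar product of two plane vectors. -/
def dot (x y : ℤ × ℤ) : ℤ := x.1 * y.1 + x.2 * y.2

/-- Rotation by a right angle. -/
def perp (x : ℤ × ℤ) : ℤ × ℤ := (-x.2, x.1)

/-- `w` is invariant under `M ℤ²`. -/
def PerM {K : Type*} (M : ℤ) (w : ℤ × ℤ → K) : Prop := ∀ z, Function.Periodic w (M • z)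

theorem det_smul_eq (g p z : ℤ × ℤ) : det g p • z = det z p • g + det g z • p := by
  ext <;> simp [det] <;> ring

theorem dot_smul_eq (g z : ℤ × ℤ) : dot g g • z = dot g z • g + det g z • perp g := by
  ext <;> simp [det, dot, perp] <;> ring

theorem dot_pos {g : ℤ × ℤ} (hg : g ≠ 0) : 0 < dot g g := by
  have : g.1 ≠ 0 ∨ g.2 ≠ 0 := by
    by_contra h
    push Not at h
    exact hg (Prod.ext h.1 h.2)
  unfold dot
  rcases this with h | h
  · nlinarith [mul_self_pos.2 h, mul_self_nonneg g.2]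
  · nlinarith [mul_self_pos.2 h, mul_self_nonneg g.1]

theorem perM_of_two {K : Type*} {w : ℤ × ℤ → K} {g p : ℤ × ℤ} (hg : Function.Periodic w g)
    (hp : Function.Periodic w p) : PerM (det g p) w := fun z => by
  rw [det_smul_eq]
  exact (hg.zsmul _).add_period (hp.zsmul _)

theorem PerM.of_dvd {K : Type*} {w : ℤ × ℤ → K} {M N : ℤ} (h : PerM M w) (hd : M ∣ N) :
    PerM N w := fun z => by
  obtain ⟨c, rfl⟩ := hd
  rw [mul_smul]
  exact h _

theorem common {ι : Type*} (s : Finset ι) (Q : ι → ℤ → Prop)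
    (mono : ∀ i M N, Q i M → M ∣ N → Q i N) (h : ∀ i ∈ s, ∃ M, 0 < M ∧ Q i M) :
    ∃ M, 0 < M ∧ ∀ i ∈ s, Q i M := by
  classical
  choose! M hM hQ using h
  exact ⟨∏ i ∈ s, M i, prod_pos hM, fun i hi => mono i _ _ (hQ i hi) (dvd_prod_of_mem M hi)⟩

/-- Reduction modulo `D ℤ²`. -/
def red (D : ℤ) (x : ℤ × ℤ) : ℤ × ℤ := (x.1 % D, x.2 % D)

theorem red_mem {D : ℤ} (hD : 0 < D) (x : ℤ × ℤ) : red D x ∈ Ico 0 D ×ˢ Ico 0 D := by
  simp [red, Int.emod_nonneg _ hD.ne', Int.emod_lt_of_pos _ hD]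

theorem red_add (D : ℤ) (x : ℤ × ℤ) : red D x + D • (x.1 / D, x.2 / D) = x := by
  ext <;> simp [red, Int.emod_add_mul_ediv]

theorem red_add_smul (D : ℤ) (x z : ℤ × ℤ) : red D (x + D • z) = red D x := by
  simp [red]

theorem glue {K : Type*} {w : ℤ × ℤ → K} {D : ℤ} (hD : 0 < D)
    (h : ∀ x, ∃ M, 0 < M ∧ PerM M (fun y => w (x + D • y))) : ∃ M, 0 < M ∧ PerM M w := by
  obtain ⟨M, hM, hQ⟩ := common (Ico 0 D ×ˢ Ico 0 D) (fun x M => PerM M (fun y => w (x + D • y)))
    (fun _ _ _ h hd => h.of_dvd hd) fun x _ => h x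
  refine ⟨D * M, mul_pos hD hM, fun z x => ?_⟩
  have := hQ _ (red_mem hD x) z (x.1 / D, x.2 / D)
  simp only [smul_add] at this
  rw [← add_assoc, red_add] at this
  rw [mul_smul, this]

theorem finite_box {g : ℤ × ℤ} (hg : g ≠ 0) (δ : ℤ) :
    {y : ℤ × ℤ | det g y ∈ Set.Ico 0 δ ∧ dot g y ∈ Set.Ico 0 (dot g g)}.Finite := by
  have hinj : Function.Injective fun y : ℤ × ℤ => (det g y, dot g y) := by
    intro y y' h
    simp only [Prod.mk.injEq] at h
    have e := dot_smul_eq g y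
    rw [h.1, h.2, ← dot_smul_eq g y'] at e
    exact smul_right_injective _ (dot_pos hg).ne' e
  exact ((Set.finite_Ico 0 δ).prod (Set.finite_Ico 0 (dot g g))).preimage hinj.injOn

theorem det_add (g x y : ℤ × ℤ) : det g (x + y) = det g x + det g y := by simp [det]; ring

theorem det_sub (g x y : ℤ × ℤ) : det g (x - y) = det g x - det g y := by simp [det]; ring

theorem det_smul (g x : ℤ × ℤ) (c : ℤ) : det g (c • x) = c * det g x := by simp [det]; ring

theorem det_self (g : ℤ × ℤ) : det g g = 0 := by simp [det]; ring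

theorem det_perp (g : ℤ × ℤ) : det g (perp g) = dot g g := by simp [det, dot, perp]

theorem dot_sub_smul (g x : ℤ × ℤ) (c : ℤ) : dot g (x - c • g) = dot g x - c * dot g g := by
  simp [dot]; ring

/-- Two strips with the same pattern. -/
theorem same_strip {a : ℤ × ℤ → ℕ} (ha : ∀ y, a y ≤ 1) {g : ℤ × ℤ} (hg : g ≠ 0)
    (hp : Function.Periodic a g) (e : ℤ × ℤ) (δ : ℤ) :
    ∃ k l : ℤ, k < l ∧ ∀ y, 0 ≤ det g y → det g y < δ → a (y + k • e) = a (y + l • e) := by
  have := (finite_box hg δ).to_subtype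
  have key : ∃ k l : ℤ, k ≠ l ∧ ∀ y, 0 ≤ det g y → det g y < δ →
      a (y + k • e) = a (y + l • e) := by
    obtain ⟨k, l, hkl, h⟩ := Finite.exists_ne_map_eq_of_infinite
      (fun (k : ℤ) (y : {y : ℤ × ℤ | det g y ∈ Set.Ico 0 δ ∧ dot g y ∈ Set.Ico 0 (dot g g)}) =>
        (⟨a (y.1 + k • e), Nat.lt_succ_of_le (ha _)⟩ : Fin 2))
    refine ⟨k, l, hkl, fun y h0 h1 => ?_⟩
    have hd := dot_pos hg
    have hmem : y - (dot g y / dot g g) • g ∈
        {y : ℤ × ℤ | det g y ∈ Set.Ico 0 δ ∧ dot g y ∈ Set.Ico 0 (dot g g)} := by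
      refine ⟨?_, ?_⟩
      · rw [det_sub, det_smul, det_self, mul_zero, sub_zero]; exact ⟨h0, h1⟩
      · rw [dot_sub_smul, mul_comm, ← Int.emod_def]
        exact ⟨Int.emod_nonneg _ hd.ne', Int.emod_lt_of_pos _ hd⟩
    have h2 := congrArg Fin.val (congrFun h ⟨_, hmem⟩)
    simp only at h2
    rw [sub_add_eq_add_sub, sub_add_eq_add_sub, hp.sub_zsmul_eq, hp.sub_zsmul_eq] at h2
    exact h2
  obtain ⟨k, l, hkl, h⟩ := key
  rcases lt_or_gt_of_ne hkl with h1 | h1
  · exact ⟨k, l, h1, h⟩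
  · exact ⟨l, k, h1, fun y h0 h1 => (h y h0 h1).symm⟩

/-- A one-periodic solution of a periodic tiling equation can be replaced by a periodic one. -/
theorem periodise (F : Finset (ℤ × ℤ)) {a : ℤ × ℤ → ℕ} (ha : ∀ y, a y ≤ 1) {g : ℤ × ℤ}
    (hg : g ≠ 0) (hp : Function.Periodic a g) {D : ℤ} (hD : 0 < D)
    (hc : PerM D fun x => ∑ f ∈ F, a (x - f)) :
    ∃ b : ℤ × ℤ → ℕ, (∃ M, 0 < M ∧ PerM M b) ∧
      ∀ x, ∑ f ∈ F, b (x - f) = ∑ f ∈ F, a (x - f) := by
  obtain ⟨W, hW0, hW⟩ : ∃ W : ℤ, 0 < W ∧ ∀ f ∈ F, |det g f| ≤ W := by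
    refine ⟨1 + ∑ f ∈ F, |det g f|, by positivity, fun f hf => ?_⟩
    have := single_le_sum (f := fun f => |det g f|) (fun _ _ => abs_nonneg _) hf
    linarith
  have hd := dot_pos hg
  set e : ℤ × ℤ := D • (2 * W) • perp g with he
  set δ : ℤ := D * (2 * W * dot g g) with hδ
  have hde : det g e = δ := by rw [he, det_smul, det_smul, det_perp]
  have hδW : 2 * W ≤ δ := by
    have h1 : 2 * W * 1 ≤ 2 * W * dot g g := mul_le_mul_of_nonneg_left hd (by positivity)
    have h2 : 1 * (2 * W * dot g g) ≤ δ := mul_le_mul_of_nonneg_right hD (by positivity)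
    linarith
  obtain ⟨k, l, hkl, h⟩ := same_strip ha hg hp e δ
  set p : ℤ × ℤ := (l - k) • e with hpdef
  set P : ℤ := (l - k) * δ with hP
  have hdp : det g p = P := by rw [hpdef, det_smul, hde]
  have hPδ : δ ≤ P := by
    have : 1 * δ ≤ P := mul_le_mul_of_nonneg_right (by omega) (by linarith)
    linarith
  have hP0 : 0 < P := by linarith
  set b : ℤ × ℤ → ℕ := fun x => a (x - ((det g x - k * δ) / P) • p) with hb
  have hbg : Function.Periodic b g := fun x => by
    simp only [hb, det_add, det_self, add_zero]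
    rw [add_sub_right_comm, hp]
  have hbp : Function.Periodic b p := fun x => by
    simp only [hb, det_add, hdp]
    rw [show det g x + P - k * δ = det g x - k * δ + 1 * P by ring,
      Int.add_mul_ediv_right _ _ hP0.ne']
    congr 1
    module
  have hba : ∀ x, k * δ ≤ det g x → det g x < k * δ + P + δ → b x = a x := by
    intro x h0 h1
    simp only [hb]
    by_cases h2 : det g x < k * δ + P
    · rw [Int.ediv_eq_zero_of_lt (by linarith) (by linarith)]; simp
    · have h3 : (det g x - k * δ) / P = 1 := by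
        rw [show det g x - k * δ = det g x - k * δ - P + 1 * P by ring,
          Int.add_mul_ediv_right _ _ hP0.ne', Int.ediv_eq_zero_of_lt (by linarith) (by linarith)]
        simp
      have h4 := h (x - l • e) (by rw [det_sub, det_smul, hde]; linarith)
        (by rw [det_sub, det_smul, hde]; linarith)
      rw [h3, one_smul, sub_add_cancel] at *
      rw [← h4]
      congr 1
      rw [hpdef]; module
  refine ⟨b, ⟨P, hP0, hdp ▸ perM_of_two hbg hbp⟩, fun x => ?_⟩
  set t : ℤ := (det g x - W - k * δ) / P with ht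
  have ht0 := Int.emod_nonneg (det g x - W - k * δ) hP0.ne'
  have ht1 := Int.emod_lt_of_pos (det g x - W - k * δ) hP0
  rw [Int.emod_def, ← ht] at ht0 ht1
  have h5 : ∑ f ∈ F, a (x - t • p - f) = ∑ f ∈ F, a (x - f) := by
    have := hc (-(t * ((l - k) * (2 * W))) • perp g) x
    simp only at this
    rw [← this]
    refine sum_congr rfl fun f _ => ?_
    congr 2
    rw [hpdef, he]; module
  rw [← h5]
  refine sum_congr rfl fun f hf => ?_
  have hf' := abs_le.1 (hW f hf)
  rw [← hba (x - t • p - f) (by rw [det_sub, det_sub, det_smul, hdp]; linarith)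
    (by rw [det_sub, det_sub, det_smul, hdp]; linarith), sub_right_comm, hbp.sub_zsmul_eq]

end Vale.Agent.N043
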