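import Vale.Agent.N043.ZDil
import Vale.Agent.N043.ZPer

/-!
# Every finite tile of `ℤ × ℤ` admits a periodic tiling
-/

namespace Vale.Agent.N043

open Finset Function

section Poly

variable {K : Type*} [AddCommGroup K]

theorem periodic_iter {w : ℤ × ℤ → K} {g : ℤ × ℤ} (hw : Periodic w g) (e : ℤ × ℤ) (n : ℕ) :
    Periodic ((fwdDiff e)^[n] w) g := fun x => by
  rw [← fwdDiff_iter_comp_add, show (fun r => w (r + g)) = w from funext hw]

theorem iter_diff (w : ℤ × ℤ → K) (g e : ℤ × ℤ) (n : ℕ) (x : ℤ × ℤ) :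
    (fwdDiff e)^[n] (fwdDiff g w) x = (fwdDiff e)^[n] w (x + g) - (fwdDiff e)^[n] w x := by
  have h : fwdDiff g w = (fun y => w (y + g)) + (-1 : ℤ) • w := by
    funext y; simp [fwdDiff, sub_eq_add_neg]
  rw [h, fwdDiff_iter_add, fwdDiff_iter_const_smul]
  simp [fwdDiff_iter_comp_add, sub_eq_add_neg]

theorem poly_lemma {ι : Type*} [DecidableEq ι] (h : ι → ℤ × ℤ) (g e : ℤ × ℤ) (s : Finset ι) :
    ∀ (w : ℤ × ℤ → K) (u : ι → ℤ × ℤ → K), (∀ i ∈ s, ∃ a b : ℤ, e = a • h i + b • g) →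
      Periodic w g → (∀ i ∈ s, Periodic (u i) (h i)) → (∀ x, w x + ∑ i ∈ s, u i x = 0) →
      (fwdDiff e)^[s.card] w = fun _ => 0 := by
  induction s using Finset.induction_on with
  | empty => intro w u _ _ _ hs; funext x; simpa using hs x
  | insert i s hi ih =>
    intro w u he hw hu hs
    have h1 := ih (fwdDiff (h i) w) (fun l => fwdDiff (h i) (u l))
      (fun l hl => he l (mem_insert_of_mem hl)) (periodic_iter hw (h i) 1)
      (fun l hl => periodic_iter (hu l (mem_insert_of_mem hl)) (h i) 1) fun x => by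
        have e1 := hs x
        have e2 := hs (x + h i)
        rw [sum_insert hi] at e1 e2
        rw [hu i (mem_insert_self _ _) x] at e2
        simp only [fwdDiff, sum_sub_distrib]
        rw [← sub_eq_zero.2 (e2.trans e1.symm)]
        abel
    have h2 : Periodic ((fwdDiff e)^[s.card] w) (h i) := fun x => by
      have := congrFun h1 x
      rw [iter_diff] at this
      exact sub_eq_zero.1 this
    obtain ⟨a, b, hab⟩ := he i (mem_insert_self _ _)
    have h3 : Periodic ((fwdDiff e)^[s.card] w) (a • h i + b • g) :=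
      (h2.zsmul a).add_period ((periodic_iter hw e _).zsmul b)
    rw [← hab] at h3
    rw [card_insert_of_notMem hi, iterate_succ_apply']
    funext x
    exact sub_eq_zero.2 (h3 x)

theorem diff_line (x e : ℤ × ℤ) (k : ℕ) : ∀ w : ℤ × ℤ → K,
    (fwdDiff 1)^[k] (fun n : ℤ => w (x + n • e)) = fun n : ℤ => (fwdDiff e)^[k] w (x + n • e) := by
  induction k with
  | zero => intro w; rfl
  | succ k ih =>
    intro w
    rw [iterate_succ_apply, iterate_succ_apply, ← ih]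
    congr 1
    funext n
    simp only [fwdDiff, add_smul, one_smul, add_assoc]

end Poly

theorem half_per {φ : ℤ × ℤ → ℝ} {h : ℤ × ℤ} (h0 : h ≠ 0) (hp : Periodic φ h) {D : ℤ} {k : ℕ}
    (hpoly : (fwdDiff (D • perp h))^[k] (fun x => (φ x : AddCircle (1 : ℝ))) = fun _ => 0)
    (x₀ : ℤ × ℤ) (hφ0 : ∀ x, 0 ≤ φ x) (hφ : ∀ y, φ (x₀ + D • y) ≤ 1 / 2) :
    ∃ M, 0 < M ∧ PerM M fun y => φ (x₀ + D • y) := by
  refine glue (dot_pos h0) fun y₀ => ?_
  have hl : ∀ n : ℤ, φ (x₀ + D • y₀ + n • D • perp h) ≤ 1 / 2 := fun n => by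
    have := hφ (y₀ + n • perp h)
    rwa [smul_add, ← add_assoc, smul_comm] at this
  obtain ⟨N, hN, hP⟩ := periodic_of_half k
    (fun n : ℤ => (φ (x₀ + D • y₀ + n • D • perp h) : AddCircle (1 : ℝ)))
    (by rw [diff_line (x₀ + D • y₀) (D • perp h) k fun x => (φ x : AddCircle (1 : ℝ)), hpoly])
    fun n => ee_im_nonneg (hφ0 _) (hl n)
  have hP' : Periodic (fun n : ℤ => φ (x₀ + D • y₀ + n • D • perp h)) N := fun n => by
    have := Fact.mk (one_pos : (0 : ℝ) < 1)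
    exact (AddCircle.coe_eq_coe_iff_of_mem_Ico (a := 0) (p := (1 : ℝ))
      ⟨hφ0 _, by linarith [hl (n + N)]⟩ ⟨hφ0 _, by linarith [hl n]⟩).1 (hP n)
  have key : ∀ y, φ (x₀ + D • (y₀ + dot h h • y)) =
      φ (x₀ + D • y₀ + det h y • D • perp h) := fun y => by
    rw [← hp.zsmul (D * dot h y) (x₀ + D • y₀ + det h y • D • perp h), dot_smul_eq]
    congr 1
    module
  refine ⟨N, hN, fun z y => ?_⟩
  simp only [key, det_add, det_smul]
  have := hP'.int_mul (det h z) (det h y)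
  simp only [Int.cast_id] at this
  rw [mul_comm N, this]

/-- Weak periodicity. -/
theorem weak_per {ι : Type*} [DecidableEq ι] {s : Finset ι} (hs : s.Nonempty) {h : ι → ℤ × ℤ}
    (h0 : ∀ i ∈ s, h i ≠ 0) {D : ℤ}
    (hD : ∀ i ∈ s, ∀ j ∈ s, i ≠ j → ∀ z : ℤ × ℤ, ∃ α β : ℤ, D • z = α • h i + β • h j)
    {φ : ι → ℤ × ℤ → ℝ} (φ0 : ∀ i x, 0 ≤ φ i x) (φp : ∀ i ∈ s, Periodic (φ i) (h i))
    {a : ℤ × ℤ → ℕ} (hsum : ∀ x, (a x : ℝ) + ∑ i ∈ s, φ i x = 1) (x : ℤ × ℤ) :
    ∃ j ∈ s, ∃ M : ℤ, 0 < M ∧ Periodic (fun y => a (x + D • y)) (M • h j) := by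
  have meet : ∀ i ∈ s, ∀ j ∈ s, i ≠ j → ∀ y y', φ i (x + D • y) + φ j (x + D • y') ≤ 1 := by
    intro i hi j hj hij y y'
    obtain ⟨α, β, e⟩ := hD i hi j hj hij (y' - y)
    have e1 : x + D • y' = x + D • y + α • h i + β • h j := by
      rw [add_assoc (x + D • y), ← e]; module
    have h1 := add_le_sum (f := fun l => φ l (x + D • y + α • h i)) (fun l _ => φ0 l _) hi hj hij
    have h2 := hsum (x + D • y + α • h i)
    have h3 : (0 : ℝ) ≤ a (x + D • y + α • h i) := Nat.cast_nonneg _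
    rw [e1, (φp j hj).zsmul β, ← (φp i hi).zsmul α (x + D • y)]
    linarith
  obtain ⟨j, hj, hsm⟩ : ∃ j ∈ s, ∀ i ∈ s, i ≠ j → ∀ y, φ i (x + D • y) ≤ 1 / 2 := by
    by_cases hc : ∃ j ∈ s, ∃ y, 1 / 2 < φ j (x + D • y)
    · obtain ⟨j, hj, y, hy⟩ := hc
      exact ⟨j, hj, fun i hi hij y' => by linarith [meet i hi j hj hij y' y]⟩
    · push Not at hc
      obtain ⟨j, hj⟩ := hs
      exact ⟨j, hj, fun i hi _ => hc i hi⟩
  obtain ⟨M, hM, hper⟩ := common (s.erase j) (fun i M => PerM M fun y => φ i (x + D • y))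
    (fun _ _ _ h hd => h.of_dvd hd) fun i hi => by
      obtain ⟨hij, his⟩ := mem_erase.1 hi
      refine half_per (h0 i his) (φp i his) (k := (s.erase i).card) ?_ x (φ0 i) (hsm i his hij)
      refine poly_lemma h (h i) _ (s.erase i) _ (fun l y => (φ l y : AddCircle (1 : ℝ)))
        (fun l hl => hD l (mem_of_mem_erase hl) i his (ne_of_mem_erase hl) _)
        (fun y => by simp only [φp i his y])
        (fun l hl y => by simp only [φp l (mem_of_mem_erase hl) y]) fun y => ?_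
      rw [add_sum_erase s (fun l => (φ l y : AddCircle (1 : ℝ))) his, ← QuotientAddGroup.mk_sum,
        show ∑ l ∈ s, φ l y = (1 - (a y : ℤ) : ℤ) • (1 : ℝ) by simp; linarith [hsum y],
        AddCircle.coe_zsmul, AddCircle.coe_period, smul_zero]
  refine ⟨j, hj, M, hM, fun y => ?_⟩
  have e1 := hsum (x + D • (y + M • h j))
  have e2 := hsum (x + D • y)
  rw [← add_sum_erase s _ hj] at e1 e2
  have e3 : φ j (x + D • (y + M • h j)) = φ j (x + D • y) := by
    rw [← (φp j hj).zsmul (D * M) (x + D • y)]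
    congr 1
    module
  rw [e3, sum_congr rfl fun i hi => hper i hi (h j) y] at e1
  have : (a (x + D • (y + M • h j)) : ℝ) = a (x + D • y) := by linarith
  exact_mod_cast this

theorem core_abs {ι : Type*} [DecidableEq ι] {s : Finset ι} (hs : s.Nonempty) {h : ι → ℤ × ℤ}
    (h0 : ∀ i ∈ s, h i ≠ 0) (hind : ∀ i ∈ s, ∀ j ∈ s, i ≠ j → det (h i) (h j) ≠ 0)
    {φ : ι → ℤ × ℤ → ℝ} (φ0 : ∀ i x, 0 ≤ φ i x) (φp : ∀ i ∈ s, Periodic (φ i) (h i))
    {a : ℤ × ℤ → ℕ} (hsum : ∀ x, (a x : ℝ) + ∑ i ∈ s, φ i x = 1)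
    {F : Finset (ℤ × ℤ)} (hF : F.Nonempty) (ht : ∀ x, ∑ f ∈ F, a (x - f) = 1) :
    ∃ b : ℤ × ℤ → ℕ, (∃ M, 0 < M ∧ PerM M b) ∧ ∀ x, ∑ f ∈ F, b (x - f) = 1 := by
  obtain ⟨D, hD0, hD'⟩ := common (s ×ˢ s)
    (fun p M => p.1 ≠ p.2 → ∀ z : ℤ × ℤ, ∃ α β : ℤ, M • z = α • h p.1 + β • h p.2)
    (fun p M N hQ hd hne z => by
      obtain ⟨c, rfl⟩ := hd
      rw [mul_smul]
      exact hQ hne _) fun p hp => by
      by_cases hne : p.1 = p.2
      · exact ⟨1, one_pos, fun h => absurd hne h⟩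
      · have := hind _ (mem_product.1 hp).1 _ (mem_product.1 hp).2 hne
        exact ⟨_, mul_self_pos.2 this, fun _ z => ⟨_, _, by rw [mul_smul, det_smul_eq]⟩⟩
  have hD : ∀ i ∈ s, ∀ j ∈ s, i ≠ j → ∀ z : ℤ × ℤ, ∃ α β : ℤ, D • z = α • h i + β • h j :=
    fun i hi j hj => hD' (i, j) (mem_product.2 ⟨hi, hj⟩)
  choose τ hτ hτM using weak_per hs h0 hD φ0 φp hsum
  obtain ⟨M, hM, hper⟩ := common (Ico 0 D ×ˢ Ico 0 D)
    (fun x M => Periodic (fun y => a (x + D • y)) (M • h (τ x)))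
    (fun x M N hQ hd => by
      obtain ⟨c, rfl⟩ := hd
      rw [mul_comm, mul_smul]
      exact hQ.zsmul c) fun x _ => hτM x
  have ha : ∀ y, a y ≤ 1 := le_one_of_tiling (v := id) hF ht
  set A : ι → ℤ × ℤ → ℕ := fun j x => if τ (red D x) = j then a x else 0 with hA
  have hA1 : ∀ j y, A j y ≤ 1 := fun j y => by
    simp only [hA]; split_ifs
    exacts [ha y, Nat.zero_le _]
  have hAp : ∀ j, Periodic (A j) (D • M • h j) := fun j y => by
    simp only [hA, red_add_smul]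
    split_ifs with e
    · have := hper _ (red_mem hD0 y) (y.1 / D, y.2 / D)
      simp only [smul_add] at this
      rwa [← add_assoc, red_add, e] at this
    · rfl
  set c : ι → ℤ × ℤ → ℕ := fun j x => ∑ f ∈ F, A j (x - f) with hc
  have hcp : ∀ j, Periodic (c j) (D • M • h j) := fun j y => by
    simp only [hc]
    exact sum_congr rfl fun f _ => by rw [add_sub_right_comm, hAp j]
  have hcs : ∀ x, ∑ j ∈ s, c j x = 1 := fun x => by
    simp only [hc]
    rw [sum_comm, ← ht x]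
    refine sum_congr rfl fun f _ => ?_
    simp only [hA]
    rw [sum_ite_eq, if_pos (hτ _)]
  have hc1 : ∀ j ∈ s, ∀ y z, c j y ≤ c j (y + (D * M * D) • z) := by
    intro j hj y z
    have h1 : c j y ≤ 1 := hcs y ▸ single_le_sum (f := fun l => c l y) (fun _ _ => Nat.zero_le _) hj
    by_contra hlt
    have h2 : c j (y + (D * M * D) • z) = 0 := by omega
    obtain ⟨i, hi, hi0⟩ : ∃ i ∈ s, c i (y + (D * M * D) • z) ≠ 0 :=
      exists_ne_zero_of_sum_ne_zero (by rw [hcs]; exact one_ne_zero)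
    have hij : j ≠ i := by rintro rfl; exact hi0 h2
    obtain ⟨α, β, e⟩ := hD j hj i hi hij z
    have e1 : y + (D * M * D) • z = y + α • D • M • h j + β • D • M • h i := by
      rw [mul_smul, e]; module
    have h3 := add_le_sum (f := fun l => c l (y + α • D • M • h j)) (fun l _ => Nat.zero_le _)
      hj hi hij
    rw [e1, (hcp i).zsmul β] at hi0
    simp only [hcs, (hcp j).zsmul α y] at h3
    omega
  have hcM : ∀ j ∈ s, PerM (D * M * D) (c j) := fun j hj z y => by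
    refine le_antisymm ?_ (hc1 j hj y z)
    simpa using hc1 j hj (y + (D * M * D) • z) (-z)
  have hb : ∀ j ∈ s, ∃ b : ℤ × ℤ → ℕ, (∃ M, 0 < M ∧ PerM M b) ∧
      ∀ x, ∑ f ∈ F, b (x - f) = c j x := fun j hj =>
    periodise F (hA1 j) (smul_ne_zero hD0.ne' (smul_ne_zero hM.ne' (h0 j hj))) (hAp j)
      (by positivity) (hcM j hj)
  choose! b hbM hbc using hb
  obtain ⟨N, hN, hbN⟩ := common s (fun j M => PerM M (b j)) (fun _ _ _ h hd => h.of_dvd hd) hbM
  refine ⟨fun x => ∑ j ∈ s, b j x, ⟨N, hN, fun z y => sum_congr rfl fun j hj => hbN j hj z y⟩,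
    fun x => ?_⟩
  rw [sum_comm, ← hcs x]
  exact sum_congr rfl fun j hj => hbc j hj x

theorem det_trans {u v w : ℤ × ℤ} (hv : v ≠ 0) (h1 : det u v = 0) (h2 : det v w = 0) :
    det u w = 0 := by
  have e := det_smul_eq u w v
  rw [h1, h2, zero_smul, zero_smul, add_zero] at e
  exact (smul_eq_zero.1 e).resolve_right hv

theorem det_comm (u v : ℤ × ℤ) : det u v = -det v u := by simp [det]; ring

/-- Bhattacharya's theorem in function form. -/
theorem core {F : Finset (ℤ × ℤ)} {a : ℤ × ℤ → ℕ} (ht : ∀ x, ∑ f ∈ F, a (x - f) = 1) :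
    ∃ b : ℤ × ℤ → ℕ, (∃ M, 0 < M ∧ PerM M b) ∧ ∀ x, ∑ f ∈ F, b (x - f) = 1 := by
  classical
  have hF : F.Nonempty := by
    rcases F.eq_empty_or_nonempty with rfl | hs
    · simpa using ht 0
    · exact hs
  obtain ⟨f₀, hf₀⟩ := id hF
  obtain ⟨q, hq, φ, φ0, φp, hsum⟩ := structure_thm ht hf₀
  set T := F.erase f₀ with hT
  rcases T.eq_empty_or_nonempty with hTe | hTn
  · refine ⟨a, ⟨1, one_pos, fun z y => ?_⟩, ht⟩
    have e1 := hsum (y + (1 : ℤ) • z)
    have e2 := hsum y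
    rw [hTe, sum_empty] at e1 e2
    have : (a (y + (1 : ℤ) • z) : ℝ) = a y := by linarith
    exact_mod_cast this
  have hv : ∀ f ∈ T, f - f₀ ≠ 0 := fun f hf => sub_ne_zero.2 (ne_of_mem_erase hf)
  set cl : ℤ × ℤ → Finset (ℤ × ℤ) := fun f => T.filter fun g => det (f - f₀) (g - f₀) = 0 with hcl
  have hcl_iff : ∀ f ∈ T, ∀ g ∈ T, cl f = cl g ↔ det (f - f₀) (g - f₀) = 0 := by
    intro f hf g hg
    constructor
    · intro e
      have : g ∈ cl g := mem_filter.2 ⟨hg, det_self _⟩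
      rw [← e] at this
      exact (mem_filter.1 this).2
    · intro e
      refine filter_congr fun l _ => ⟨fun h1 => ?_, fun h1 => det_trans (hv g hg) e h1⟩
      exact det_trans (hv f hf) (by rw [det_comm, e, neg_zero]) h1
  have hrep : ∀ c ∈ T.image cl, ∃ f ∈ T, cl f = c := fun c hc => mem_image.1 hc
  choose! rep hrepT hrep using hrep
  set Q : ℤ := q * ∏ g ∈ T, dot (g - f₀) (g - f₀) with hQ
  have hQ0 : 0 < Q := mul_pos hq (prod_pos fun g hg => dot_pos (hv g hg))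
  refine core_abs (s := T.image cl) (hTn.image cl) (h := fun c => Q • (rep c - f₀))
    (fun c hc => smul_ne_zero hQ0.ne' (hv _ (hrepT c hc))) (fun c hc c' hc' hne hd => ?_)
    (φ := fun c x => ∑ f ∈ T with cl f = c, φ f x) (fun c x => sum_nonneg fun f _ => φ0 f x)
    (fun c hc x => sum_congr rfl fun f hf => ?_) (fun x => ?_) hF ht
  · apply hne
    rw [← hrep c hc, ← hrep c' hc', hcl_iff _ (hrepT c hc) _ (hrepT c' hc')]
    rw [det_smul, det_comm, det_smul, det_comm] at hd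
    simpa [hQ0.ne'] using hd
  · obtain ⟨hfT, hfc⟩ := mem_filter.1 hf
    have hd : det (f - f₀) (rep c - f₀) = 0 :=
      (hcl_iff f hfT _ (hrepT c hc)).1 (hfc.trans (hrep c hc).symm)
    obtain ⟨m, hm⟩ := dvd_prod_of_mem (fun g => dot (g - f₀) (g - f₀)) hfT
    have e := dot_smul_eq (f - f₀) (rep c - f₀)
    rw [hd, zero_smul, add_zero] at e
    have e2 : Q • (rep c - f₀) = (m * dot (f - f₀) (rep c - f₀)) • q • (f - f₀) := by
      rw [hQ, hm, mul_comm (dot _ _) m, ← mul_assoc, mul_smul, e]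
      module
    simp only [e2]
    exact (φp f).zsmul _ x
  · rw [sum_fiberwise_of_maps_to fun f hf => mem_image_of_mem cl hf]
    exact hsum x

end Vale.Agent.N043
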